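import Vale.Agent.P139.H505.Fam

/-!
# P139 / H505 : from matched families to `UP`
-/

open Set Filter Topology Complex Metric
open scoped NNReal ComplexConjugate ContDiff
open Vale.Agent.P139.H460 Vale.Agent.P139.H499 Vale.Agent.P139.BU

namespace Vale.Agent.P139.H505

/-- Uniqueness for the linear equation. -/
theorem linInf_unique {d : ℕ} {w R b : ℝ} (hR : 0 < R) {Z Z1 X X1 : ℝ → ℂ}
    (cZ : ContinuousOn Z (Icc R b)) (cZ1 : ContinuousOn Z1 (Icc R b))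
    (cX : ContinuousOn X (Icc R b)) (cX1 : ContinuousOn X1 (Icc R b))
    (hZ : LinInf d w Z Z1 (Ioo R b)) (hX : LinInf d w X X1 (Ioo R b))
    (h0 : Z R = X R) (h1 : Z1 R = X1 R) : ∀ r ∈ Icc R b, Z r = X r ∧ Z1 r = X1 r := by
  have hc : Continuous (Function.uncurry fun (_ : ℝ) (_ : ℂ) => (0:ℂ)) := continuous_const
  have s1 : Sol d 0 w (fun _ _ => 0) R b (X R) (X1 R) Z Z1 :=
    Sol.of_Ioo hc hR cZ cZ1 hZ.h1 (fun r hr => (hZ.h2 r hr).congr_deriv (by simp)) h0 h1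
  have s2 : Sol d 0 w (fun _ _ => 0) R b (X R) (X1 R) X X1 :=
    Sol.of_Ioo hc hR cX cX1 hX.h1 (fun r hr => (hX.h2 r hr).congr_deriv (by simp)) rfl rfl
  exact Sol.unique (K := 0) (fun _ => LipschitzWith.const 0) hR s1 s2

section

variable {d : ℕ} {Rm Rp wm wp η0 c C r1 θz θf x0 M0 : ℝ} {U U1 : ℝ → ℝ → ℂ}
  {K : ℕ → ℝ → ℂ → ℂ} {ε : ℕ → ℝ} {m0 : ℕ} {p : ℕ → ℝ × ℝ} {τ : ℕ → ℝ} {u : ℕ → ℂ}
  {Y Y1 Qb Qb1 : ℕ → ℝ → ℂ}

/-- [UP.close] -/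
theorem Fam.close (h : Fam d Rm Rp wm wp η0 c C r1 θz θf x0 M0 U U1 K ε m0 p τ u Y Y1 Qb Qb1) :
    ∀ b : ℝ, ∃ C : ℝ, ∃ m1 : ℕ, ∀ m, m1 ≤ m → ∀ Z Z1 : ℝ → ℂ,
    ContinuousOn Z (Icc (τ m) b) → ContinuousOn Z1 (Icc (τ m) b) →
    LinInf d (p m).2 Z Z1 (Ioo (τ m) b) → Z (τ m) = 1 → Z1 (τ m) = 0 →
    ∃ z : ℂ, ‖z‖ = 1 ∧ ∀ r ∈ Icc (τ m) b,
      ‖Qf d (2 * m) (p m) r - z * Z r‖ ≤ C / Real.sqrt m ∧
      ‖deriv (Qf d (2 * m) (p m)) r - z * Z1 r‖ ≤ C / Real.sqrt m := by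
  intro b
  obtain ⟨C', hC', haux⟩ := h.close_aux (B := max b r1) (le_max_right _ _)
  obtain ⟨_, _, _, _, hex⟩ := H844.linInf_bounds (d := d) h.hd1 (R1 := Rm) (R2 := Rp)
    (b := max b r1) h.hRm (lt_max_of_lt_right (by have := h.hr1; have := h.hη0; linarith))
  refine ⟨C', m0, fun m hm Z Z1 cZ cZ1 hZ hZ0 hZ10 => ?_⟩
  have M := h.mat m hm
  have hu := M.hu
  obtain ⟨X, X1, hX, hX1, hXl, hX0, hX10, -⟩ := hex (τ m) (p m).2 M.hτ.1.le M.hτ.2.le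
    (h.wpos hm).le (M.hp.2.2.trans h.hwp)
  refine ⟨conj (u m), by rw [RCLike.norm_conj, hu], fun r hr => ?_⟩
  have hXs : LinInf d (p m).2 X X1 (Ioo (τ m) b) :=
    ⟨fun s hs => hXl.h1 s ⟨hs.1.le, hs.2.le.trans (le_max_left _ _)⟩,
      fun s hs => hXl.h2 s ⟨hs.1.le, hs.2.le.trans (le_max_left _ _)⟩⟩
  obtain ⟨e1, e2⟩ := linInf_unique (h.τpos hm) cZ cZ1 hX.continuousOn hX1.continuousOn hZ hXs
    (hZ0.trans hX0.symm) (hZ10.trans hX10.symm) r hr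
  have key := haux m hm X X1 hX hX1 hXl hX0 hX10 r ⟨hr.1, hr.2.trans (le_max_left _ _)⟩
  rw [e1, e2, deriv_Qf]
  have hcu : u m * conj (u m) = 1 := by
    rw [mul_conj, normSq_eq_norm_sq, hu]; simp
  have hrot : ∀ a b : ℂ, ‖a - conj (u m) * b‖ = ‖u m * a - b‖ := by
    intro a b
    have e : u m * a - b = u m * (a - conj (u m) * b) := by
      rw [mul_sub, ← mul_assoc, hcu, one_mul]
    rw [e, norm_mul, hu, one_mul]
  rw [hrot, hrot]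
  exact key

/-- [UP.out] -/
theorem Fam.out (h : Fam d Rm Rp wm wp η0 c C r1 θz θf x0 M0 U U1 K ε m0 p τ u Y Y1 Qb Qb1) :
    ∀ η : ℝ, 0 < η → ∃ θ : ℝ, 0 < θ ∧ θ < 1 ∧ ∃ m1 : ℕ, ∀ m, m1 ≤ m →
      ∀ r : ℝ, τ m + η ≤ r → ‖Qf d (2 * m) (p m) r‖ ≤ θ * (1 + r) ^ (-(2 * aa m)) := by
  intro η hη
  have hη0 := h.hη0
  have hc := h.hc
  have hr1 := h.hr1
  set η' := min η η0 with hη'
  have hη'0 : 0 < η' := lt_min hη hη0
  set θ1 := Real.exp (-(c * η' ^ 2)) with hθ1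
  have hθ1' : θ1 < 1 := by
    rw [hθ1, Real.exp_lt_one_iff]; have := mul_pos hc (pow_pos hη'0 2); linarith
  have hθ1p : 0 < θ1 := Real.exp_pos _
  set θ2 := (1 + θz) / 2 with hθ2
  have hθ2' : θ2 < 1 := by have := h.hθz; simp only [hθ2]; linarith
  have hθz2 : θz < θ2 := by have := h.hθz; simp only [hθ2]; linarith
  set θ3 := max θ1 θ2 with hθ3
  have hθ3' : θ3 < 1 := max_lt hθ1' hθ2'
  have hθ3p : 0 < θ3 := lt_max_of_lt_left hθ1p
  set θ4 := (1 + θ3) / 2 with hθ4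
  have hθ4' : θ4 < 1 := by simp only [hθ4]; linarith
  have hθ34 : θ3 < θ4 := by simp only [hθ4]; linarith
  have hnear := H644.out_near (b := r1) hθ3p.le hθ34
  have hCs : ∀ᶠ m : ℕ in atTop, C / Real.sqrt ((2 * m : ℕ) : ℝ) < θ2 - θz :=
    (tendsto_C_div_sqrt C).eventually (gt_mem_nhds (by linarith))
  obtain ⟨m1, hm1⟩ := eventually_atTop.1 (hnear.and hCs)
  obtain ⟨_, _, _, _, hex⟩ := H844.linInf_bounds (d := d) h.hd1 (R1 := Rm) (R2 := Rp)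
    (b := r1) h.hRm (by linarith)
  refine ⟨max θ4 θf, lt_max_of_lt_left (by linarith), max_lt hθ4' h.hθf, max m0 m1,
    fun m hm r hr => ?_⟩
  have hm0 : m0 ≤ m := (le_max_left _ _).trans hm
  obtain ⟨hn, hCm⟩ := hm1 m ((le_max_right _ _).trans hm)
  have M := h.mat m hm0
  have hτ0 := h.τpos hm0
  have hr0 : 0 < r := by linarith
  have hmpos : 1 ≤ m := by have := h.m0_two; omega
  have hpw : 0 ≤ (1 + r) ^ (-(2 * aa m)) := Real.rpow_nonneg (by linarith) _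
  have hle4 : θ4 * (1 + r) ^ (-(2 * aa m)) ≤ max θ4 θf * (1 + r) ^ (-(2 * aa m)) :=
    mul_le_mul_of_nonneg_right (le_max_left _ _) hpw
  have hlef : θf * (1 + r) ^ (-(2 * aa m)) ≤ max θ4 θf * (1 + r) ^ (-(2 * aa m)) :=
    mul_le_mul_of_nonneg_right (le_max_right _ _) hpw
  have hw0 := h.wpos hm0
  have hw1 : (p m).2 ≤ 1 := M.hp.2.2.trans h.hwp
  rcases le_total r1 r with hrr | hrr
  · rw [(h.norm_q hm0).2 r hrr]
    exact ((h.far m hm0).dec r hrr).trans hlef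
  have hτr : τ m ≤ r := by linarith
  rw [(h.norm_q hm0).1 r ⟨hτr, hrr⟩]
  refine le_trans ?_ ((hn r hr0.le hrr).trans hle4)
  rcases le_total r (τ m + η0) with h1 | h1
  · refine le_trans ?_ (le_max_left _ _)
    have h2 := M.layer r ⟨hτr, h1⟩
    have h3 : ‖Y m r‖ ^ (2 * m) ≤ θ1 ^ (2 * m) := by
      refine h2.trans ?_
      rw [hθ1, ← Real.exp_nat_mul]
      have h4 : Real.exp (-(c * ((2 * m : ℕ) : ℝ) * (r - τ m) ^ 2)) ≤
          Real.exp (((2 * m : ℕ) : ℝ) * -(c * η' ^ 2)) := by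
        apply Real.exp_le_exp.2
        have h5 : η' ^ 2 ≤ (r - τ m) ^ 2 :=
          pow_le_pow_left₀ hη'0.le ((min_le_left _ _).trans (by linarith)) 2
        have h6 : c * ((2 * m : ℕ) : ℝ) * η' ^ 2 ≤ c * ((2 * m : ℕ) : ℝ) * (r - τ m) ^ 2 := by
          gcongr
        linarith
      have h7 : (p m).2 / 2 * Real.exp (-(c * ((2 * m : ℕ) : ℝ) * (r - τ m) ^ 2)) ≤
          Real.exp (-(c * ((2 * m : ℕ) : ℝ) * (r - τ m) ^ 2)) :=
        mul_le_of_le_one_left (Real.exp_pos _).le (by linarith)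
      exact h7.trans h4
    exact le_of_pow_le_pow_left₀ (by omega) hθ1p.le h3
  · refine le_trans ?_ (le_max_right _ _)
    obtain ⟨X, X1, hX, hX1, hXl, hX0, hX10, -⟩ := hex (τ m) (p m).2 M.hτ.1.le M.hτ.2.le
      hw0.le hw1
    have hrad : RadODE d 0 (p m).2 (fun _ => 0) X X1 (Ioo (τ m) r1) := by
      refine ⟨fun t ht => hXl.h1 t ⟨ht.1.le, ht.2.le⟩, fun t ht => ?_⟩
      refine (hXl.h2 t ⟨ht.1.le, ht.2.le⟩).congr_deriv ?_
      simp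
    have h2 := h.hfun (p m).2 M.hp.2 (τ m) ⟨M.hτ.1.le, M.hτ.2.le⟩ X X1 hX.continuousOn
      hX1.continuousOn hrad hX0 hX10 r ⟨h1, hrr⟩
    have h3 := (M.close X X1 hX.continuousOn hX1.continuousOn hrad hX0 hX10 r ⟨hτr, hrr⟩).1
    calc ‖Y m r‖ = ‖X r + (Y m r - X r)‖ := by congr 1; ring
      _ ≤ ‖X r‖ + ‖Y m r - X r‖ := norm_add_le _ _
      _ ≤ θ2 := by linarith

/-- The far field of the profile. -/
theorem Fam.farField (h : Fam d Rm Rp wm wp η0 c C r1 θz θf x0 M0 U U1 K ε m0 p τ u Y Y1 Qb Qb1)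
    {m : ℕ} (hm : m0 ≤ m) :
    H644.FarField m (max x0 (r1 ^ 2 / 4)) M0 (Qf d (2 * m) (p m)) := by
  have M := h.mat m hm
  have hu := M.hu
  have hcu : conj (u m) * u m = 1 := by
    rw [mul_comm, mul_conj, normSq_eq_norm_sq, hu]; simp
  have h1 := (h.ff m hm).const_mul (conj (u m))
  rw [RCLike.norm_conj, hu, one_mul] at h1
  refine h1.congr (r1 := r1) fun r hr => ?_
  rw [← ((h.glue hm).2 r hr).1, ← mul_assoc, hcu, one_mul]

/-- The right-hand sides agree. -/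
theorem radRHS_eq {m : ℕ} {w r : ℝ} {Q P : ℂ} :
    -((((d:ℝ) - 1) / r : ℝ) + I * (r / 2 : ℝ)) * P - ((w:ℂ) + I * (aa m : ℝ)) * Q
      + ((‖Q‖ ^ (2 * m) : ℝ) : ℂ) * Q = H644.radRHS d m w r Q P := by
  unfold H644.radRHS
  rw [W1_eq_norm_pow]

/-- [UP.prof] -/
theorem Fam.prof (h : Fam d Rm Rp wm wp η0 c C r1 θz θf x0 M0 U U1 K ε m0 p τ u Y Y1 Qb Qb1) :
    ∀ m, m0 ≤ m → IsProfile d m (p m).2 (fun x : E d => Qf d (2 * m) (p m) ‖x‖) := by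
  intro m hm
  have hm2 : 2 ≤ m := h.m0_two.trans hm
  have hrad := h.radODE hm
  obtain ⟨V, _, hV, _, _, _, hVe⟩ := exists_smooth_cQ (d := d) hm2 (p m).2 (q0f (2 * m) (p m))
    (R := 1) one_pos (fun r _ => h.pot hm r)
  obtain ⟨f, hf, hfb, hqf⟩ := h.farField hm
  refine H644.isProfile_of_radial (Q := Qf d (2 * m) (p m)) (Q1 := Qf1 d (2 * m) (p m))
    (fun r _ => hasDerivAt_Qf _ _ _ _) (fun r hr => (hrad.h2 r hr).congr_deriv radRHS_eq)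
    (fun r _ => h.ne m hm r) one_pos hV (fun r hr => (hVe r hr).1)
    (lt_max_of_lt_left h.hx0) hf hfb hqf

/-- [UP.rad] -/
theorem Fam.rad (h : Fam d Rm Rp wm wp η0 c C r1 θz θf x0 M0 U U1 K ε m0 p τ u Y Y1 Qb Qb1) :
    ∀ m, m0 ≤ m → ∃ g : ℝ → ℂ, ContDiff ℝ ∞ g ∧ ∀ r, Qf d (2 * m) (p m) r = g (r ^ 2) := by
  intro m hm
  obtain ⟨g, hg, hgx⟩ := (h.prof m hm).radial
  refine ⟨g, hg, fun r => ?_⟩
  have hd := h.hd1
  have key : ∀ r : ℝ, 0 ≤ r → Qf d (2 * m) (p m) r = g (r ^ 2) := by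
    intro r hr
    have h1 := hgx (EuclideanSpace.single (⟨0, hd⟩ : Fin d) r)
    have h2 : ‖(EuclideanSpace.single (⟨0, hd⟩ : Fin d) r : E d)‖ = r := by
      simp [abs_of_nonneg hr]
    rw [h2] at h1
    exact h1
  rcases le_total 0 r with hr | hr
  · exact key r hr
  · rw [← Qf_neg, key (-r) (by linarith), neg_sq]

/-- **The package `UP`** from the matched families (everything except the limit of the
parameters). -/
theorem Fam.up (h : Fam d Rm Rp wm wp η0 c C r1 θz θf x0 M0 U U1 K ε m0 p τ u Y Y1 Qb Qb1)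
    {B : Set (ℝ × ℝ)} (hB : ∀ w ∈ Icc wm wp, ∀ R ∈ Icc Rm Rp, (w, R) ∈ B)
    (zero : Tendsto (fun m : ℕ => KU.J (1 - I * ((p m).2 : ℂ))
      ((d : ℂ) / 2 - 1 + I * ((p m).2 : ℂ)) (((τ m) ^ 2 / 4 : ℝ) : ℂ)) atTop (𝓝 0)) :
    UP d B m0 (fun m => (p m).2) τ (fun m => Qf d (2 * m) (p m)) := by
  have hwbd : ∃ w1 > 0, ∀ m, m0 ≤ m → w1 ≤ (p m).2 ∧ (p m).2 ≤ 1 :=
    ⟨wm, h.hwm, fun m hm => ⟨(h.mat m hm).hp.2.1, (h.mat m hm).hp.2.2.trans h.hwp⟩⟩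
  have hRbd : ∃ R1 > 0, ∃ R2, ∀ m, m0 ≤ m → R1 ≤ τ m ∧ τ m ≤ R2 :=
    ⟨Rm, h.hRm, Rp, fun m hm => ⟨(h.mat m hm).hτ.1.le, (h.mat m hm).hτ.2.le⟩⟩
  have hq0 : ∀ m, m0 ≤ m → 0 < q0f (2 * m) (p m) := fun m hm => h.q0pos hm
  have hR4 : ∀ m, m0 ≤ m → τ m ≤ 4 := fun m hm => by
    have := (h.mat m hm).hτ.2; have := h.hRp; linarith
  have hRb : ∀ m, m0 ≤ m → τ m < τ m + 1 := fun m _ => by linarith
  have hreg : ∀ m, m0 ≤ m → RegSol d (2 * m) (p m).2 (q0f (2 * m) (p m)) (τ m + 1)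
      (Qf d (2 * m) (p m)) (Qf1 d (2 * m) (p m)) := fun m _ => regSol_Qf h.hd1 _ _ _
  have hhit : ∀ m, m0 ≤ m → FirstHit (2 * m) (p m).2 (Qf d (2 * m) (p m)) (τ m) :=
    fun m hm => (h.mat m hm).first
  have hd0 : ∀ m, m0 ≤ m → deriv (Qf d (2 * m) (p m)) 0 = 0 := fun m _ => by
    rw [deriv_Qf]; exact cQ1_zero _ _ _ _
  have hcore := H844.up_core h.hd hwbd hq0 hR4 hRb hreg hhit hd0
  have hlayer := h.layer
  have hclose := h.close
  have hout := h.out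
  have hrad := h.rad
  have habove : ∀ m, m0 ≤ m → ∀ r ∈ Icc (0 : ℝ) (τ m),
      (p m).2 / 2 ≤ ‖Qf d (2 * m) (p m) r‖ ^ (2 * m) := fun m hm => (hhit m hm).above
  have hbd := H844.up_bd (m0 := m0) (w := fun m => (p m).2) (R := τ)
    (q := fun m => Qf d (2 * m) (p m)) (by have := h.hd; omega) hrad h.ode hwbd hRbd habove
    (by
      obtain ⟨C, hC, m1, h1⟩ := hcore
      exact ⟨C, hC, m1, fun m hm r hr => (h1 m hm r hr).1⟩) hlayer hclose hout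
  have hsymb := H644.symb_of_far (d := d) h.hd1 (m0 := m0) (w := fun m => (p m).2)
    (q := fun m => Qf d (2 * m) (p m)) (by have := h.m0_two; omega) h.prof hrad
    ⟨1, fun m hm => by
      have h1 := h.wpos hm
      have h2 := (h.mat m hm).hp.2.2
      have h3 := h.hwp
      rw [abs_of_pos h1]; linarith⟩
    (fun b hb => by
      obtain ⟨c', _, C', m1, h1⟩ := hbd b hb
      exact ⟨C', m1, fun m hm r hr => ⟨(h1 m hm r hr).2.1, (h1 m hm r hr).2.2.2.2⟩⟩)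
    ⟨max x0 (r1 ^ 2 / 4), lt_max_of_lt_left h.hx0, M0, m0, fun m hm => h.farField hm⟩
  exact {
    m0_pos := by have := h.m0_two; omega
    prof := h.prof
    rad := hrad
    ode := h.ode
    ne := h.ne
    q0 := fun m hm => by
      have h1 := hq0 m hm
      simp only [Qf_zero]
      exact ⟨by simp, by simpa using h1⟩
    mem := fun m hm => hB _ (h.mat m hm).hp.2 _ ⟨(h.mat m hm).hτ.1.le, (h.mat m hm).hτ.2.le⟩
    wpos := fun m hm => h.wpos hm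
    Rpos := fun m hm => h.τpos hm
    wbd := hwbd
    Rbd := hRbd
    zero := zero
    bd := hbd
    hit := fun m hm => (hhit m hm).hit
    above := habove
    core := hcore
    mono := H844.up_mono h.hd hwbd hq0 hR4 hRb hreg hhit hd0 hlayer
    layer := hlayer
    close := hclose
    out := hout
    symb := hsymb }

end

end Vale.Agent.P139.H505
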