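import Mathlib.Analysis.ODE.Gronwall
import Mathlib.Analysis.ODE.PicardLindelof
import Mathlib.MeasureTheory.Integral.IntervalIntegral.FundThmCalculus
import Mathlib.MeasureTheory.Integral.IntervalIntegral.IntegrationByParts
import Mathlib.Analysis.SpecialFunctions.Integrals.Basic
import Mathlib.Topology.MetricSpace.Contracting
import Mathlib.Topology.ContinuousMap.Compact

/-!
# P139 / H505 : globally Lipschitz ODEs on a compact interval, with parameters

* `exists_ode` : existence on `[c,e]` for a globally Lipschitz field.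
* `continuousOn_ode_param` : joint continuity of the solution in (parameter, time).
-/

open Set Filter Topology MeasureTheory
open scoped NNReal Interval

namespace Vale.Agent.P139.H505

variable {E : Type*} [NormedAddCommGroup E] [NormedSpace ℝ E]

omit [NormedSpace ℝ E] in
/-- Joint continuity from continuity in time and a uniform Lipschitz bound. -/
theorem continuousOn_joint {c e : ℝ} {F : ℝ → E → E} {K : ℝ≥0}
    (hlip : ∀ r ∈ Icc c e, LipschitzWith K (F r))
    (hcont : ∀ x, ContinuousOn (fun r => F r x) (Icc c e)) :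
    ContinuousOn (fun p : ℝ × E => F p.1 p.2) (Icc c e ×ˢ univ) :=
  continuousOn_prod_of_continuousOn_lipschitzOnWith' (fun p : ℝ × E => F p.1 p.2) K
    (fun r hr => (hlip r hr).lipschitzOnWith) (fun x _ => hcont x)

theorem integral_exp_mul_le {l r : ℝ} (hl : 0 < l) (_hr : 0 ≤ r) :
    ∫ s in (0:ℝ)..r, Real.exp (l * s) = (Real.exp (l * r) - 1) / l := by
  rw [intervalIntegral.integral_comp_mul_left _ hl.ne', integral_exp, mul_zero, Real.exp_zero,
    smul_eq_mul]
  field_simp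

/-- Global existence on `[0,T]` for a globally Lipschitz field (no growth hypothesis). -/
theorem exists_volterra [CompleteSpace E] {T : ℝ} (hT : 0 ≤ T) {F : ℝ → E → E} {K : ℝ≥0}
    (hlip : ∀ r ∈ Icc 0 T, LipschitzWith K (F r))
    (hcont : ∀ x, ContinuousOn (fun r => F r x) (Icc 0 T)) (y₀ : E) :
    ∃ y : ℝ → E, ContinuousOn y (Icc 0 T) ∧
      ∀ r ∈ Icc 0 T, y r = y₀ + ∫ s in (0:ℝ)..r, F s (y s) := by
  set l : ℝ := 2 * K + 1 with hl
  have hlpos : 0 < l := by positivity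
  have hjoint := continuousOn_joint hlip hcont
  -- the integrand attached to a continuous function
  let G : C(Icc (0:ℝ) T, E) → ℝ → E := fun w s =>
    F (projIcc 0 T hT s) (Real.exp (l * projIcc 0 T hT s) • w (projIcc 0 T hT s))
  have hGc : ∀ w, Continuous (G w) := by
    intro w
    have h1 : Continuous fun s : ℝ => (((projIcc 0 T hT s : Icc (0:ℝ) T) : ℝ),
        Real.exp (l * (projIcc 0 T hT s : Icc (0:ℝ) T)) • w (projIcc 0 T hT s)) := by
      have h2 : Continuous fun s : ℝ => projIcc 0 T hT s := continuous_projIcc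
      have h3 : Continuous fun s : ℝ => ((projIcc 0 T hT s : Icc (0:ℝ) T) : ℝ) :=
        continuous_subtype_val.comp h2
      exact h3.prodMk ((Real.continuous_exp.comp (continuous_const.mul h3)).smul
        (w.continuous.comp h2))
    exact hjoint.comp_continuous h1 fun s => mk_mem_prod (projIcc 0 T hT s).2 (mem_univ _)
  let Φ : C(Icc (0:ℝ) T, E) → C(Icc (0:ℝ) T, E) := fun w =>
    { toFun := fun r => Real.exp (-(l * r)) • (y₀ + ∫ s in (0:ℝ)..r, G w s)
      continuous_toFun := by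
        have h1 : Continuous fun r : ℝ => ∫ s in (0:ℝ)..r, G w s :=
          intervalIntegral.continuous_primitive (fun a b => (hGc w).intervalIntegrable a b) 0
        have h2 : Continuous fun r : ℝ => Real.exp (-(l * r)) • (y₀ + ∫ s in (0:ℝ)..r, G w s) := by
          fun_prop
        exact h2.comp continuous_subtype_val }
  have hGd : ∀ w₁ w₂ : C(Icc (0:ℝ) T, E), ∀ s ∈ Icc 0 T,
      ‖G w₁ s - G w₂ s‖ ≤ K * (Real.exp (l * s) * dist w₁ w₂) := by
    intro w₁ w₂ s hs
    have h1 := (hlip _ (projIcc 0 T hT s).2).dist_le_mul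
      (Real.exp (l * projIcc 0 T hT s) • w₁ (projIcc 0 T hT s))
      (Real.exp (l * projIcc 0 T hT s) • w₂ (projIcc 0 T hT s))
    rw [dist_eq_norm] at h1
    refine h1.trans ?_
    rw [dist_smul₀, Real.norm_eq_abs, abs_of_pos (Real.exp_pos _)]
    have h2 : ((projIcc 0 T hT s : Icc (0:ℝ) T) : ℝ) = s := by
      rw [projIcc_of_mem hT hs]
    gcongr
    · rw [h2]
    · exact ContinuousMap.dist_apply_le_dist _
  have hcontr : ContractingWith (1/2 : ℝ≥0) Φ := by
    refine ⟨by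
      rw [← NNReal.coe_lt_coe]; push_cast; norm_num, LipschitzWith.of_dist_le_mul fun w₁ w₂ => ?_⟩
    rw [ContinuousMap.dist_le (by positivity)]
    intro r
    have hr := r.2
    change dist (Real.exp (-(l * r)) • (y₀ + ∫ s in (0:ℝ)..r, G w₁ s))
      (Real.exp (-(l * r)) • (y₀ + ∫ s in (0:ℝ)..r, G w₂ s)) ≤ _
    rw [dist_smul₀, dist_add_left, dist_eq_norm, ← intervalIntegral.integral_sub
      ((hGc w₁).intervalIntegrable _ _) ((hGc w₂).intervalIntegrable _ _), Real.norm_eq_abs,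
      abs_of_pos (Real.exp_pos _)]
    have h1 : ‖∫ s in (0:ℝ)..r, (G w₁ s - G w₂ s)‖ ≤
        ∫ s in (0:ℝ)..r, K * (Real.exp (l * s) * dist w₁ w₂) := by
      refine intervalIntegral.norm_integral_le_of_norm_le hr.1 ?_ ?_
      · refine Filter.Eventually.of_forall fun s hs => hGd w₁ w₂ s ⟨hs.1.le, hs.2.trans hr.2⟩
      · exact (by fun_prop : Continuous fun s : ℝ =>
          (K:ℝ) * (Real.exp (l * s) * dist w₁ w₂)).intervalIntegrable _ _
    rw [intervalIntegral.integral_const_mul, intervalIntegral.integral_mul_const,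
      integral_exp_mul_le hlpos hr.1] at h1
    have h2 : Real.exp (-(l * r)) * Real.exp (l * r) = 1 := by
      rw [← Real.exp_add]; simp
    have hd : 0 ≤ dist w₁ w₂ := dist_nonneg
    have h3 : Real.exp (-(l * r)) * ‖∫ s in (0:ℝ)..r, (G w₁ s - G w₂ s)‖ ≤
        Real.exp (-(l * r)) * (K * ((Real.exp (l * r) - 1) / l * dist w₁ w₂)) := by
      gcongr
    refine h3.trans ?_
    have h4 : Real.exp (-(l * r)) * (K * ((Real.exp (l * r) - 1) / l * dist w₁ w₂))
        = K / l * (Real.exp (-(l * r)) * Real.exp (l * r) - Real.exp (-(l * r))) * dist w₁ w₂ := by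
      field_simp
    rw [h4, h2]
    have h5 : (K : ℝ) / l ≤ 1 / 2 := by
      rw [div_le_div_iff₀ hlpos (by norm_num)]
      simp only [hl]; linarith
    have h6 : 0 ≤ Real.exp (-(l * r)) := (Real.exp_pos _).le
    have h7 : Real.exp (-(l * r)) ≤ 1 := by
      rw [Real.exp_le_one_iff]
      have := mul_nonneg hlpos.le hr.1
      linarith
    have h8 : (K : ℝ) / l * (1 - Real.exp (-(l * r))) ≤ 1 / 2 := by
      have h9 : 0 ≤ (K:ℝ) / l := by positivity
      nlinarith
    calc (K : ℝ) / l * (1 - Real.exp (-(l * r))) * dist w₁ w₂ ≤ 1 / 2 * dist w₁ w₂ := by gcongr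
      _ = ((1/2 : ℝ≥0) : ℝ) * dist w₁ w₂ := by push_cast; ring
  obtain ⟨w, hw⟩ : ∃ w, Φ w = w := ⟨ContractingWith.fixedPoint Φ hcontr,
    hcontr.fixedPoint_isFixedPt⟩
  refine ⟨fun r => Real.exp (l * r) • w (projIcc 0 T hT r), ?_, ?_⟩
  · refine Continuous.continuousOn ?_
    exact (by fun_prop : Continuous fun r : ℝ => Real.exp (l * r)).smul
      (w.continuous.comp continuous_projIcc)
  · intro r hr
    have h1 : w ⟨r, hr⟩ = Real.exp (-(l * r)) • (y₀ + ∫ s in (0:ℝ)..r, G w s) := by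
      conv_lhs => rw [← hw]
      rfl
    beta_reduce
    rw [projIcc_of_mem hT hr, h1, smul_smul, ← Real.exp_add]
    have h2 : l * r + -(l * r) = 0 := by ring
    rw [h2, Real.exp_zero, one_smul]
    congr 1
    refine intervalIntegral.integral_congr fun s hs => ?_
    rw [uIcc_of_le hr.1] at hs
    have hs' : s ∈ Icc 0 T := ⟨hs.1, hs.2.trans hr.2⟩
    simp only [G]
    rw [projIcc_of_mem hT hs']

/-- Integral equation to differential equation, one-sided derivative inside the interval. -/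
theorem hasDerivWithinAt_of_volterra [CompleteSpace E] {T : ℝ} {g y : ℝ → E} {y₀ : E}
    (hg : ContinuousOn g (Icc 0 T)) (hy : ∀ r ∈ Icc 0 T, y r = y₀ + ∫ s in (0:ℝ)..r, g s) :
    ∀ r ∈ Icc 0 T, HasDerivWithinAt y (g r) (Icc 0 T) r := by
  intro r hr
  have hT : 0 ≤ T := hr.1.trans hr.2
  have h1 : HasDerivWithinAt (fun r => ∫ s in (0:ℝ)..r, g s) (g r) (Icc 0 T) r := by
    have : Fact (r ∈ Icc 0 T) := ⟨hr⟩
    refine intervalIntegral.integral_hasDerivWithinAt_right (t := Icc 0 T) ?_ ?_ (hg r hr)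
    · refine (hg.mono ?_).intervalIntegrable
      rw [uIcc_of_le hr.1]
      exact Icc_subset_Icc le_rfl hr.2
    · exact hg.stronglyMeasurableAtFilter_nhdsWithin measurableSet_Icc r
  have h2 := h1.const_add y₀
  exact h2.congr (fun s hs => hy s hs) (hy r hr)

/-- A function continuous on `[a,b]` with a derivative inside that extends continuously is
differentiable (one-sidedly) up to the end points. -/
theorem hasDerivWithinAt_Icc_of_Ioo [CompleteSpace E] {a b : ℝ} {f f' : ℝ → E} (hf : ContinuousOn f (Icc a b))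
    (hf' : ContinuousOn f' (Icc a b)) (hd : ∀ r ∈ Ioo a b, HasDerivAt f (f' r) r) :
    ∀ r ∈ Icc a b, HasDerivWithinAt f (f' r) (Icc a b) r := by
  intro r hr
  have hab : a ≤ b := hr.1.trans hr.2
  have : Fact (r ∈ Icc a b) := ⟨hr⟩
  have h1 : HasDerivWithinAt (fun r => ∫ s in a..r, f' s) (f' r) (Icc a b) r := by
    refine intervalIntegral.integral_hasDerivWithinAt_right (t := Icc a b) ?_ ?_ (hf' r hr)
    · refine (hf'.mono ?_).intervalIntegrable
      rw [uIcc_of_le hr.1]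
      exact Icc_subset_Icc le_rfl hr.2
    · exact hf'.stronglyMeasurableAtFilter_nhdsWithin measurableSet_Icc r
  have key : ∀ s ∈ Icc a b, f s = f a + ∫ t in a..s, f' t := by
    intro s hs
    have h2 := intervalIntegral.integral_eq_sub_of_hasDerivAt_of_le hs.1
      (hf.mono (Icc_subset_Icc le_rfl hs.2)) (fun x hx => hd x ⟨hx.1, hx.2.trans_le hs.2⟩)
      ((hf'.mono (by rw [uIcc_of_le hs.1]; exact Icc_subset_Icc le_rfl hs.2)).intervalIntegrable)
    rw [h2]; abel
  exact (h1.const_add (f a)).congr key (key r hr)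

/-- Global existence on `[0,T]` for a globally Lipschitz field. -/
theorem exists_ode [CompleteSpace E] {T : ℝ} (hT : 0 ≤ T) {F : ℝ → E → E} {K : ℝ≥0}
    (hlip : ∀ r ∈ Icc 0 T, LipschitzWith K (F r))
    (hcont : ∀ x, ContinuousOn (fun r => F r x) (Icc 0 T)) (y₀ : E) :
    ∃ y : ℝ → E, y 0 = y₀ ∧ ContinuousOn y (Icc 0 T) ∧
      ∀ r ∈ Icc 0 T, HasDerivWithinAt y (F r (y r)) (Icc 0 T) r := by
  obtain ⟨y, hyc, hy⟩ := exists_volterra hT hlip hcont y₀
  refine ⟨y, ?_, hyc, ?_⟩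
  · rw [hy 0 ⟨le_rfl, hT⟩]; simp
  · have hg : ContinuousOn (fun s => F s (y s)) (Icc 0 T) :=
      (continuousOn_joint hlip hcont).comp (continuousOn_id.prodMk hyc)
        fun s hs => mk_mem_prod hs (mem_univ _)
    exact hasDerivWithinAt_of_volterra hg hy

/-- Comparison with a fixed trajectory: `|y r - z r| ≤ (δ + ε r) e^{K r}`. -/
theorem dist_le_of_ode {T : ℝ} {F : ℝ → E → E} {K : ℝ≥0} (hlip : ∀ r ∈ Icc 0 T, LipschitzWith K (F r))
    {y z z' : ℝ → E} {δ ε : ℝ} (hδ : 0 ≤ δ) (hε : 0 ≤ ε)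
    (hy : ∀ r ∈ Icc 0 T, HasDerivWithinAt y (F r (y r)) (Icc 0 T) r)
    (hz : ∀ r ∈ Icc 0 T, HasDerivWithinAt z (z' r) (Icc 0 T) r)
    (h0 : ‖y 0 - z 0‖ ≤ δ) (hd : ∀ r ∈ Icc 0 T, ‖z' r - F r (z r)‖ ≤ ε) :
    ∀ r ∈ Icc 0 T, ‖y r - z r‖ ≤ (δ + ε * T) * Real.exp ((K + 1) * T) := by
  intro r hr
  have hT : 0 ≤ T := hr.1.trans hr.2
  have hyc : ContinuousOn y (Icc 0 T) := fun s hs => (hy s hs).continuousWithinAt
  have hzc : ContinuousOn z (Icc 0 T) := fun s hs => (hz s hs).continuousWithinAt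
  have key := dist_le_of_approx_trajectories_ODE_of_mem (a := 0) (b := T) (v := F)
    (s := fun _ => univ) (K := K + 1) (f := y) (g := z) (f' := fun r => F r (y r)) (g' := z')
    (εf := 0) (εg := ε) (δ := δ)
    (fun t ht => ((hlip t ⟨ht.1, ht.2.le⟩).weaken (by simp)).lipschitzOnWith) hyc
    (fun t ht => (hy t ⟨ht.1, ht.2.le⟩).mono_of_mem_nhdsWithin (Icc_mem_nhdsGE_of_mem ht))
    (fun t _ => by simp) (fun _ _ => mem_univ _) hzc
    (fun t ht => (hz t ⟨ht.1, ht.2.le⟩).mono_of_mem_nhdsWithin (Icc_mem_nhdsGE_of_mem ht))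
    (fun t ht => by rw [dist_eq_norm]; exact hd t ⟨ht.1, ht.2.le⟩) (fun _ _ => mem_univ _)
    (by rw [dist_eq_norm]; exact h0) r hr
  rw [dist_eq_norm] at key
  refine key.trans ?_
  have hK : (((K + 1 : ℝ≥0)) : ℝ) ≠ 0 := by positivity
  have hK1 : (((K + 1 : ℝ≥0)) : ℝ) = K + 1 := by push_cast; ring
  rw [gronwallBound_of_K_ne_0 hK, hK1, zero_add, sub_zero]
  have h1 : Real.exp ((K + 1) * r) ≤ Real.exp ((K + 1) * T) := by
    gcongr; exact hr.2
  have h2 : Real.exp ((K + 1) * r) - 1 ≤ (K + 1) * T * Real.exp ((K + 1) * T) := by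
    -- `e^x - 1 ≤ x e^x`
    have h3 : (1 : ℝ) - (K + 1) * r ≤ Real.exp (-((K + 1) * r)) := by
      have := Real.add_one_le_exp (-((K + 1 : ℝ) * r)); linarith
    have h4 : Real.exp ((K + 1) * r) * Real.exp (-((K + 1) * r)) = 1 := by
      rw [← Real.exp_add]; simp
    have h5 : 0 < Real.exp ((K + 1) * r) := Real.exp_pos _
    have h6 : Real.exp ((K + 1) * r) - 1 ≤ (K + 1) * r * Real.exp ((K + 1) * r) := by
      nlinarith
    refine h6.trans ?_
    have hr0 := hr.1
    gcongr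
    exact hr.2
  have h7 : ε / (K + 1) * (Real.exp ((K + 1) * r) - 1) ≤ ε * T * Real.exp ((K + 1) * T) := by
    have h8 : (0:ℝ) < K + 1 := by positivity
    calc ε / (K + 1) * (Real.exp ((K + 1) * r) - 1)
        ≤ ε / (K + 1) * ((K + 1) * T * Real.exp ((K + 1) * T)) := by gcongr
      _ = ε * T * Real.exp ((K + 1) * T) := by field_simp
  have h9 : δ * Real.exp ((K + 1) * r) ≤ δ * Real.exp ((K + 1) * T) := by gcongr
  linarith

/-- Uniqueness on `[0,T]`. -/
theorem ode_unique {T : ℝ} {F : ℝ → E → E} {K : ℝ≥0} (hlip : ∀ r ∈ Icc 0 T, LipschitzWith K (F r))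
    {y z : ℝ → E} (hy : ∀ r ∈ Icc 0 T, HasDerivWithinAt y (F r (y r)) (Icc 0 T) r)
    (hz : ∀ r ∈ Icc 0 T, HasDerivWithinAt z (F r (z r)) (Icc 0 T) r) (h0 : y 0 = z 0) :
    EqOn y z (Icc 0 T) := by
  intro r hr
  have := dist_le_of_ode hlip le_rfl le_rfl hy hz (by simp [h0]) (by simp) r hr
  simpa [sub_eq_zero] using this

/-- Joint continuity of the solution in (parameter, time): the parameter runs over a subset of an
arbitrary topological space; the Lipschitz constant is uniform. -/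
theorem continuousOn_ode_param {X : Type*} [TopologicalSpace X] {S : Set X} {T : ℝ} {K : ℝ≥0}
    {F : X → ℝ → E → E} (hlip : ∀ x ∈ S, ∀ r ∈ Icc 0 T, LipschitzWith K (F x r))
    (hF : ContinuousOn (fun p : X × ℝ × E => F p.1 p.2.1 p.2.2) (S ×ˢ Icc 0 T ×ˢ univ))
    {y : X → ℝ → E}
    (hy : ∀ x ∈ S, ∀ r ∈ Icc 0 T, HasDerivWithinAt (y x) (F x r (y x r)) (Icc 0 T) r)
    (hy0 : ContinuousOn (fun x => y x 0) S) :
    ContinuousOn (fun p : X × ℝ => y p.1 p.2) (S ×ˢ Icc 0 T) := by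
  rintro ⟨x, r⟩ ⟨hx, hr⟩
  simp only at hx hr
  have hT : 0 ≤ T := hr.1.trans hr.2
  rw [Metric.continuousWithinAt_iff']
  intro ε hε
  set M : ℝ := Real.exp ((K + 1) * T) with hM
  have hMpos : 0 < M := Real.exp_pos _
  -- a small `δ`
  set δ : ℝ := ε / (2 * M * (1 + T)) with hδ
  have hδpos : 0 < δ := by positivity
  have hyc : ContinuousOn (y x) (Icc 0 T) := fun s hs => (hy x hx s hs).continuousWithinAt
  -- closeness of the fields along the fixed trajectory `y x`
  have hfield : ∀ᶠ x' in 𝓝 x, ∀ s ∈ Icc 0 T, s ∈ Icc 0 T → x' ∈ S →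
      ‖F x s (y x s) - F x' s (y x s)‖ < δ := by
    refine isCompact_Icc.eventually_forall_of_forall_eventually
      (P := fun x' s => s ∈ Icc 0 T → x' ∈ S → ‖F x s (y x s) - F x' s (y x s)‖ < δ)
      (fun s hs => ?_)
    have h1 : ContinuousWithinAt (fun p : X × ℝ => F x p.2 (y x p.2) - F p.1 p.2 (y x p.2))
        (S ×ˢ Icc 0 T) (x, s) := by
      have hmaps1 : MapsTo (fun p : X × ℝ => ((x, p.2, y x p.2) : X × ℝ × E)) (S ×ˢ Icc 0 T)
          (S ×ˢ Icc 0 T ×ˢ univ) := fun p hp => ⟨hx, hp.2, mem_univ _⟩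
      have hmaps2 : MapsTo (fun p : X × ℝ => ((p.1, p.2, y x p.2) : X × ℝ × E)) (S ×ˢ Icc 0 T)
          (S ×ˢ Icc 0 T ×ˢ univ) := fun p hp => ⟨hp.1, hp.2, mem_univ _⟩
      have hyp : ContinuousWithinAt (fun p : X × ℝ => y x p.2) (S ×ˢ Icc 0 T) (x, s) :=
        (hyc s hs).comp (f := fun p : X × ℝ => p.2) continuousWithinAt_snd fun p hp => hp.2
      have hc1 := (hF (x, s, y x s) ⟨hx, hs, mem_univ _⟩).comp
        (f := fun p : X × ℝ => ((x, p.2, y x p.2) : X × ℝ × E)) (x := (x, s))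
        (continuousWithinAt_const.prodMk (continuousWithinAt_snd.prodMk hyp)) hmaps1
      have hc2 := (hF (x, s, y x s) ⟨hx, hs, mem_univ _⟩).comp
        (f := fun p : X × ℝ => ((p.1, p.2, y x p.2) : X × ℝ × E)) (x := (x, s))
        (continuousWithinAt_fst.prodMk (continuousWithinAt_snd.prodMk hyp)) hmaps2
      exact hc1.sub hc2
    have h2 : ∀ᶠ p in 𝓝[S ×ˢ Icc 0 T] (x, s),
        ‖F x p.2 (y x p.2) - F p.1 p.2 (y x p.2)‖ < δ := by
      have h3 := h1.norm
      simp only [ContinuousWithinAt, sub_self, norm_zero] at h3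
      exact h3.eventually (gt_mem_nhds hδpos)
    rw [eventually_nhdsWithin_iff] at h2
    filter_upwards [h2] with p hp hp1 hp2
    exact hp (mk_mem_prod hp2 hp1)
  have hinit : ∀ᶠ x' in 𝓝[S] x, ‖y x' 0 - y x 0‖ < δ := by
    have h1 : ContinuousWithinAt (fun x' => y x' 0 - y x 0) S x :=
      (hy0 x hx).sub (continuousWithinAt_const (b := y x 0))
    have h3 := h1.norm
    simp only [ContinuousWithinAt, sub_self, norm_zero] at h3
    exact h3.eventually (gt_mem_nhds hδpos)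
  have hclose : ∀ᶠ x' in 𝓝[S] x, ∀ s ∈ Icc 0 T, ‖y x' s - y x s‖ ≤ ε / 2 := by
    filter_upwards [mem_nhdsWithin_of_mem_nhds hfield, hinit, self_mem_nhdsWithin]
      with x' h1 h2 h3 s hs
    have h4 := dist_le_of_ode (hlip x' h3) hδpos.le hδpos.le (hy x' h3) (hy x hx) h2.le
      (fun r hr => (h1 r hr hr h3).le) s hs
    refine h4.trans (le_of_eq ?_)
    simp only [hδ, ← hM]
    field_simp
  have hcr : ∀ᶠ p in 𝓝[S ×ˢ Icc 0 T] (x, r), ‖y x p.2 - y x r‖ < ε / 2 := by
    have h1 : ContinuousWithinAt (fun p : X × ℝ => y x p.2 - y x r) (S ×ˢ Icc 0 T) (x, r) :=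
      ((hyc r hr).comp (f := fun p : X × ℝ => p.2) continuousWithinAt_snd
        fun p hp => hp.2).sub continuousWithinAt_const
    have h3 := h1.norm
    simp only [ContinuousWithinAt, sub_self, norm_zero] at h3
    exact h3.eventually (gt_mem_nhds (by positivity))
  have hcl' : ∀ᶠ p in 𝓝[S ×ˢ Icc 0 T] (x, r), ∀ s ∈ Icc 0 T, ‖y p.1 s - y x s‖ ≤ ε / 2 := by
    have : Tendsto (fun p : X × ℝ => p.1) (𝓝[S ×ˢ Icc 0 T] (x, r)) (𝓝[S] x) := by
      rw [nhdsWithin_prod_eq]; exact tendsto_fst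
    exact this.eventually hclose
  filter_upwards [hcr, hcl', self_mem_nhdsWithin] with p h1 h2 h3
  rw [dist_eq_norm]
  calc ‖y p.1 p.2 - y x r‖ = ‖(y p.1 p.2 - y x p.2) + (y x p.2 - y x r)‖ := by congr 1; abel
    _ ≤ ‖y p.1 p.2 - y x p.2‖ + ‖y x p.2 - y x r‖ := norm_add_le _ _
    _ < ε / 2 + ε / 2 := add_lt_add_of_le_of_lt (h2 _ h3.2) h1
    _ = ε := by ring

end Vale.Agent.P139.H505
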