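import Vale.Agent.P139.H460.PSpec
import Vale.Agent.P139.H505.ParODE

/-!
# P139 / H505 : the Wronskian (Abel) identity for the radial ODE
-/

open Set Filter Topology Complex

namespace Vale.Agent.P139.H505

open Vale.Agent.P139.H460

/-- The Abel weight `r^{d-1} e^{i r²/4}`. -/
noncomputable def abelW (d : ℕ) (r : ℝ) : ℂ := (r : ℂ) ^ (d - 1) * exp (I * ((r ^ 2 / 4 : ℝ) : ℂ))

theorem abelW_ne_zero {d : ℕ} {r : ℝ} (hr : 0 < r) : abelW d r ≠ 0 :=
  mul_ne_zero (pow_ne_zero _ (by exact_mod_cast hr.ne')) (exp_ne_zero _)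

theorem norm_abelW {d : ℕ} {r : ℝ} (hr : 0 < r) : ‖abelW d r‖ = r ^ (d - 1) := by
  rw [abelW, norm_mul, norm_pow, norm_real, Real.norm_eq_abs, abs_of_pos hr, mul_comm I,
    norm_exp_ofReal_mul_I, mul_one]

theorem continuous_abelW (d : ℕ) : Continuous (abelW d) := by
  unfold abelW
  fun_prop

theorem hasDerivAt_abelW {d : ℕ} (hd : 1 ≤ d) {r : ℝ} (hr : 0 < r) :
    HasDerivAt (abelW d) (((((d:ℝ) - 1) / r : ℝ) + I * (r / 2 : ℝ)) * abelW d r) r := by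
  obtain ⟨k, rfl⟩ : ∃ k, d = k + 1 := ⟨d - 1, by omega⟩
  have h1 : HasDerivAt (fun r : ℝ => (r : ℂ) ^ (k + 1 - 1)) ((k : ℂ) * (r : ℂ) ^ (k - 1)) r := by
    have := (ofRealCLM.hasDerivAt (x := r)).fun_pow k
    simpa using this
  have h2 : HasDerivAt (fun r : ℝ => exp (I * ((r ^ 2 / 4 : ℝ) : ℂ)))
      (exp (I * ((r ^ 2 / 4 : ℝ) : ℂ)) * (I * ((r / 2 : ℝ) : ℂ))) r := by
    have h3 : HasDerivAt (fun r : ℝ => (r ^ 2 / 4 : ℝ)) (r / 2) r := by
      have := ((hasDerivAt_id r).fun_pow 2).div_const 4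
      refine this.congr_deriv ?_
      simp only [id]
      push_cast
      ring
    exact ((h3.ofReal_comp).const_mul I).cexp
  have h4 := h1.mul h2
  refine h4.congr_deriv ?_
  have hr' : (r : ℂ) ≠ 0 := by exact_mod_cast hr.ne'
  simp only [abelW]
  rcases k with _ | k
  · simp
    ring
  · simp only [Nat.add_sub_cancel]
    push_cast
    field_simp
    ring

/-- **Abel's identity**: for two solutions of the same radial equation
`Q'' + ((d-1)/r + i r/2) Q' + (w + i a) Q = P(r) Q` the function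
`(Z' U - Z U') r^{d-1} e^{i r²/4}` is constant. -/
theorem abel {d : ℕ} (hd : 1 ≤ d) {a w : ℝ} {P : ℝ → ℝ} {Z Z1 U U1 : ℝ → ℂ} {R r1 : ℝ} (hR : 0 < R)
    (cZ : ContinuousOn Z (Icc R r1)) (cZ1 : ContinuousOn Z1 (Icc R r1))
    (cU : ContinuousOn U (Icc R r1)) (cU1 : ContinuousOn U1 (Icc R r1))
    (hZ : RadODE d a w P Z Z1 (Ioo R r1)) (hU : RadODE d a w P U U1 (Ioo R r1)) :
    ∀ r ∈ Icc R r1, (Z1 r * U r - Z r * U1 r) * abelW d r
      = (Z1 R * U R - Z R * U1 R) * abelW d R := by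
  have hder : ∀ r ∈ Ioo R r1, HasDerivAt
      (fun r => (Z1 r * U r - Z r * U1 r) * abelW d r) 0 r := by
    intro r hr
    have h1 := (((hZ.h2 r hr).mul (hU.h1 r hr)).sub ((hZ.h1 r hr).mul (hU.h2 r hr))).mul
      (hasDerivAt_abelW hd (hR.trans hr.1))
    refine h1.congr_deriv ?_
    simp only [Pi.mul_apply, Pi.sub_apply]
    ring
  have hcont : ContinuousOn (fun r => (Z1 r * U r - Z r * U1 r) * abelW d r) (Icc R r1) :=
    ((cZ1.mul cU).sub (cZ.mul cU1)).mul (continuous_abelW d).continuousOn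
  have hwd := hasDerivWithinAt_Icc_of_Ioo hcont (f' := fun _ => 0) continuousOn_const hder
  intro r hr
  refine constant_of_has_deriv_right_zero hcont (fun x hx => ?_) r hr
  exact (hwd x ⟨hx.1, hx.2.le⟩).mono_of_mem_nhdsWithin (Icc_mem_nhdsGE_of_mem hx)

/-- Special case used for the matching: `Z` has data `(1,0)` at `R`. -/
theorem abel_one_zero {d : ℕ} (hd : 1 ≤ d) {a w : ℝ} {P : ℝ → ℝ} {Z Z1 U U1 : ℝ → ℂ} {R r1 : ℝ}
    (hR : 0 < R) (hRr : R ≤ r1)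
    (cZ : ContinuousOn Z (Icc R r1)) (cZ1 : ContinuousOn Z1 (Icc R r1))
    (cU : ContinuousOn U (Icc R r1)) (cU1 : ContinuousOn U1 (Icc R r1))
    (hZ : RadODE d a w P Z Z1 (Ioo R r1)) (hU : RadODE d a w P U U1 (Ioo R r1))
    (h0 : Z R = 1) (h1 : Z1 R = 0) :
    (Z1 r1 * U r1 - Z r1 * U1 r1) * abelW d r1 = - U1 R * abelW d R := by
  have := abel hd hR cZ cZ1 cU cU1 hZ hU r1 ⟨hRr, le_rfl⟩
  rw [this, h0, h1]
  ring

end Vale.Agent.P139.H505
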