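import Vale.Agent.P139.H505.IVP2

/-!
# P139 / H505 : the second phase for the truncated nonlinear potential; the linear case
-/

open Set Filter Topology Complex MeasureTheory
open scoped NNReal Interval

namespace Vale.Agent.P139.H505

open Vale.Agent.P139.H460

/-! ### Uniqueness -/

/-- From interior derivatives and continuity to `Sol`. -/
theorem Sol.of_Ioo {d : ℕ} {a w : ℝ} {Φ : ℝ → ℂ → ℂ} (hΦc : Continuous (Function.uncurry Φ))
    {R r1 : ℝ} {y0 y1 : ℂ} {Y Y1 : ℝ → ℂ} (hR : 0 < R)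
    (cY : ContinuousOn Y (Icc R r1)) (cY1 : ContinuousOn Y1 (Icc R r1))
    (d1 : ∀ r ∈ Ioo R r1, HasDerivAt Y (Y1 r) r)
    (d2 : ∀ r ∈ Ioo R r1, HasDerivAt Y1
      (-((((d:ℝ) - 1) / r : ℝ) + I * (r / 2 : ℝ)) * Y1 r - ((w:ℂ) + I * a) * Y r
        + Φ (r - R) (Y r)) r)
    (h0 : Y R = y0) (h1 : Y1 R = y1) : Sol d a w Φ R r1 y0 y1 Y Y1 := by
  refine ⟨cY, cY1, hasDerivWithinAt_Icc_of_Ioo cY cY1 d1,
    hasDerivWithinAt_Icc_of_Ioo cY1 ?_ d2, h0, h1⟩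
  have hdiv : ContinuousOn (fun r : ℝ => ((((d:ℝ) - 1) / r : ℝ) : ℂ)) (Icc R r1) :=
    continuous_ofReal.comp_continuousOn (continuousOn_const.div continuousOn_id
      fun r hr => (hR.trans_le hr.1).ne')
  have hP : ContinuousOn (fun r : ℝ => Φ (r - R) (Y r)) (Icc R r1) :=
    hΦc.comp_continuousOn (g := Function.uncurry Φ) (f := fun r : ℝ => (r - R, Y r))
      (ContinuousOn.prodMk (by fun_prop) cY)
  refine ContinuousOn.add (ContinuousOn.sub (ContinuousOn.mul (ContinuousOn.neg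
      (ContinuousOn.add hdiv ?_)) cY1) (ContinuousOn.mul ?_ cY)) hP
  · fun_prop
  · fun_prop

/-- Uniqueness for the initial value problem at `R > 0`. -/
theorem Sol.unique {d : ℕ} {a w : ℝ} {Φ : ℝ → ℂ → ℂ} {K : ℝ≥0} (hΦ : ∀ s, LipschitzWith K (Φ s))
    {R r1 : ℝ} {y0 y1 : ℂ} {Y Y1 Z Z1 : ℝ → ℂ} (hR : 0 < R)
    (hY : Sol d a w Φ R r1 y0 y1 Y Y1) (hZ : Sol d a w Φ R r1 y0 y1 Z Z1) :
    ∀ r ∈ Icc R r1, Y r = Z r ∧ Y1 r = Z1 r := by
  intro r hr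
  have hRr1 : R ≤ r1 := hr.1.trans hr.2
  -- shift to `[0, r1 - R]`
  set T := r1 - R with hT
  have hT0 : 0 ≤ T := by linarith
  have hm : ∀ s ∈ Icc (0:ℝ) T, s + R ∈ Icc R r1 := fun s hs => ⟨by linarith [hs.1], by
    linarith [hs.2]⟩
  set K' : ℝ≥0 := Real.toNNReal (1 + ((d + 1) / R + r1 / 2) + (|w| + |a|) + K) with hK'
  have hr10 : 0 < r1 := hR.trans_le hRr1
  have hlip : ∀ s ∈ Icc 0 T, LipschitzWith K' (fun y : ℂ × ℂ => vf d a w Φ R (s + R) y) := by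
    intro s hs
    refine LipschitzWith.of_dist_le_mul fun y z => ?_
    rw [hK', Real.coe_toNNReal _ (by positivity), dist_eq_norm, dist_eq_norm]
    exact vf_dist_le hΦ hR (hm s hs).1 (hm s hs).2 le_rfl y z
  have hder : ∀ {U U1 : ℝ → ℂ}, Sol d a w Φ R r1 y0 y1 U U1 → ∀ s ∈ Icc 0 T,
      HasDerivWithinAt (fun s => (U (s + R), U1 (s + R)))
        (vf d a w Φ R (s + R) (U (s + R), U1 (s + R))) (Icc 0 T) s := by
    intro U U1 hU s hs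
    have h1 := (hU.d1 (s + R) (hm s hs)).scomp s
      (((hasDerivAt_id s).add_const R).hasDerivWithinAt (s := Icc 0 T)) (fun x hx => hm x hx)
    have h2 := (hU.d2 (s + R) (hm s hs)).scomp s
      (((hasDerivAt_id s).add_const R).hasDerivWithinAt (s := Icc 0 T)) (fun x hx => hm x hx)
    have h3 := h1.prodMk h2
    simp only [one_smul] at h3
    exact h3
  have h := ode_unique (F := fun s y => vf d a w Φ R (s + R) y) hlip (hder hY) (hder hZ)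
    (by simp [hY.init0, hY.init1, hZ.init0, hZ.init1]) (x := r - R)
    ⟨by linarith [hr.1], by linarith [hr.2]⟩
  simp only [sub_add_cancel, Prod.mk.injEq] at h
  exact h

/-! ### The truncated potential -/

theorem mul_pow_sub_pow_le {x y : ℝ} (hx : 0 ≤ x) (hxy : x ≤ y) (n : ℕ) :
    x * (y ^ n - x ^ n) ≤ n * y ^ n * (y - x) := by
  induction n with
  | zero => simp
  | succ n ih =>
    have hy : 0 ≤ y := hx.trans hxy
    have h1 : x * (y ^ (n + 1) - x ^ (n + 1)) = y * (x * (y ^ n - x ^ n)) + x * x ^ n * (y - x) := by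
      ring
    have h2 : y * (x * (y ^ n - x ^ n)) ≤ y * (n * y ^ n * (y - x)) := by gcongr
    have h3 : x * x ^ n * (y - x) ≤ y * y ^ n * (y - x) := by
      have : 0 ≤ y - x := by linarith
      gcongr
    have h4 : ((n + 1 : ℕ) : ℝ) * y ^ (n + 1) * (y - x)
        = y * (n * y ^ n * (y - x)) + y * y ^ n * (y - x) := by push_cast; ring
    linarith

theorem trunc_le {x y ω : ℝ} (hx : 0 ≤ x) (hxy : x ≤ y) (hω : 0 ≤ ω) (n : ℕ) :
    (min (y ^ n) ω - min (x ^ n) ω) * x ≤ n * ω * (y - x) := by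
  have hy : 0 ≤ y := hx.trans hxy
  have hd : 0 ≤ y - x := by linarith
  rcases le_total ω (x ^ n) with h | h
  · have h2 : ω ≤ y ^ n := h.trans (pow_le_pow_left₀ hx hxy n)
    rw [min_eq_right h, min_eq_right h2, sub_self, zero_mul]
    positivity
  rw [min_eq_left h]
  rcases le_total (y ^ n) ω with h2 | h2
  · rw [min_eq_left h2, mul_comm]
    refine (mul_pow_sub_pow_le hx hxy n).trans ?_
    gcongr
  · rw [min_eq_right h2]
    obtain ⟨c, hc, hcω⟩ : ∃ c ∈ Icc x y, c ^ n = ω :=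
      intermediate_value_Icc hxy (continuous_pow n).continuousOn ⟨h, h2⟩
    have h3 := mul_pow_sub_pow_le hx hc.1 n
    rw [hcω] at h3
    rw [mul_comm]
    refine h3.trans ?_
    have : 0 ≤ n * ω := by positivity
    gcongr
    exact hc.2

/-- The truncated nonlinearity. -/
noncomputable def phiN (n : ℕ) (ω : ℝ) (z : ℂ) : ℂ := ((min (‖z‖ ^ n) ω : ℝ) : ℂ) * z

theorem phiN_sub_le {n : ℕ} {ω : ℝ} (hω : 0 ≤ ω) (z w : ℂ) :
    ‖phiN n ω z - phiN n ω w‖ ≤ (n + 1) * ω * ‖z - w‖ := by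
  wlog h : ‖w‖ ≤ ‖z‖ generalizing z w
  · rw [← norm_neg, neg_sub, ← norm_neg (z - w), neg_sub]
    exact this w z (le_of_not_ge h)
  have e : phiN n ω z - phiN n ω w = ((min (‖z‖ ^ n) ω : ℝ) : ℂ) * (z - w)
      + ((min (‖z‖ ^ n) ω - min (‖w‖ ^ n) ω : ℝ) : ℂ) * w := by
    simp only [phiN]; push_cast; ring
  rw [e]
  refine (norm_add_le _ _).trans ?_
  rw [norm_mul, norm_mul, norm_real, norm_real, Real.norm_eq_abs, Real.norm_eq_abs]
  have h1 : |min (‖z‖ ^ n) ω| ≤ ω := by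
    rw [abs_of_nonneg (le_min (by positivity) hω)]; exact min_le_right _ _
  have h2 : |min (‖z‖ ^ n) ω - min (‖w‖ ^ n) ω| = min (‖z‖ ^ n) ω - min (‖w‖ ^ n) ω := by
    refine abs_of_nonneg (sub_nonneg.2 (min_le_min_right _ ?_))
    gcongr
  rw [h2]
  have h3 := trunc_le (norm_nonneg w) h hω n
  have h4 : ‖z‖ - ‖w‖ ≤ ‖z - w‖ := norm_sub_norm_le _ _
  have h5 : (n:ℝ) * ω * (‖z‖ - ‖w‖) ≤ n * ω * ‖z - w‖ := by gcongr
  have h6 : |min (‖z‖ ^ n) ω| * ‖z - w‖ ≤ ω * ‖z - w‖ := by gcongr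
  nlinarith

theorem phiN_lip {n : ℕ} {ω : ℝ} (hω : 0 ≤ ω) (hω4 : ω ≤ 4) :
    LipschitzWith ((n + 1) * 4) (phiN n ω) := by
  refine LipschitzWith.of_dist_le_mul fun z w => ?_
  rw [dist_eq_norm, dist_eq_norm]
  refine (phiN_sub_le hω z w).trans ?_
  push_cast
  gcongr

theorem continuous_phiN (n : ℕ) : Continuous fun p : ℝ × ℂ => phiN n p.1 p.2 := by
  unfold phiN
  fun_prop

theorem omg_nonneg {n : ℕ} {η θ s : ℝ} (hθ : 0 ≤ θ) : 0 ≤ omg n η θ s :=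
  le_max_of_le_left (by positivity)

theorem omg_le {n : ℕ} {η θ s : ℝ} (hθ0 : 0 ≤ θ) (hθ : θ ≤ 1) : omg n η θ s ≤ 4 :=
  max_le ((pow_le_one₀ hθ0 hθ).trans (by norm_num)) (min_le_left _ _)

theorem continuous_omg {n : ℕ} {η θ : ℝ} : Continuous (omg n η θ) := by
  unfold omg
  fun_prop

/-- **[P.IVP2]** existence and joint continuity for the second phase. -/
theorem second_phase (d n : ℕ) {η θ : ℝ} (hθ0 : 0 ≤ θ) (hθ : θ ≤ 1) {Rm Rp wm wp r1 : ℝ}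
    (hRm : 0 < Rm) (hRp : Rp < r1) :
    ∃ Y Y1 : (ℝ × ℂ × ℂ × ℝ) → ℝ → ℂ,
      (∀ p ∈ PS Rm Rp wm wp,
        Sol d (1 / n) p.2.2.2 (fun s => phiN n (omg n η θ s)) p.1 r1 p.2.1 p.2.2.1 (Y p) (Y1 p) ∧
        ContinuousOn (Y p) (Icc p.1 r1) ∧ ContinuousOn (Y1 p) (Icc p.1 r1) ∧
        RadODE d (1 / n) p.2.2.2 (fun r => min (‖Y p r‖ ^ n) (omg n η θ (r - p.1))) (Y p) (Y1 p)
          (Ioo p.1 r1) ∧
        Y p p.1 = p.2.1 ∧ Y1 p p.1 = p.2.2.1) ∧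
      ContinuousOn (fun q : (ℝ × ℂ × ℂ × ℝ) × ℝ => Y q.1 q.2)
        {q | q.1 ∈ PS Rm Rp wm wp ∧ q.2 ∈ Icc q.1.1 r1} ∧
      ContinuousOn (fun q : (ℝ × ℂ × ℂ × ℝ) × ℝ => Y1 q.1 q.2)
        {q | q.1 ∈ PS Rm Rp wm wp ∧ q.2 ∈ Icc q.1.1 r1} := by
  have hc : Continuous (Function.uncurry fun s => phiN n (omg n η θ s)) :=
    (continuous_phiN n).comp (f := fun p : ℝ × ℂ => (omg n η θ p.1, p.2))
      ((continuous_omg.comp continuous_fst).prodMk continuous_snd)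
  obtain ⟨Y, Y1, h, h1, h2⟩ := exists_sol_param d (1 / n) (wm := wm) (wp := wp) hc
    (fun s => phiN_lip (n := n) (omg_nonneg hθ0) (omg_le hθ0 hθ)) hRm hRp
  refine ⟨Y, Y1, fun p hp => ⟨h p hp, (h p hp).cY, (h p hp).cY1, ⟨(h p hp).hasDerivAt1, ?_⟩,
    (h p hp).init0, (h p hp).init1⟩, h1, h2⟩
  intro r hr
  exact (h p hp).hasDerivAt2 r hr

/-- Continuity of the end values in the parameters. -/
theorem continuousOn_end {Rm Rp wm wp r1 : ℝ} (hRp : Rp < r1)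
    {Y : (ℝ × ℂ × ℂ × ℝ) → ℝ → ℂ}
    (h : ContinuousOn (fun q : (ℝ × ℂ × ℂ × ℝ) × ℝ => Y q.1 q.2)
        {q | q.1 ∈ PS Rm Rp wm wp ∧ q.2 ∈ Icc q.1.1 r1}) :
    ContinuousOn (fun p => Y p r1) (PS Rm Rp wm wp) :=
  h.comp (f := fun p : ℝ × ℂ × ℂ × ℝ => (p, r1)) (by fun_prop)
    fun p hp => ⟨hp, (hp.1.2.trans hRp.le), le_rfl⟩

/-- **Linear case** (`a = 0`, no potential): existence and joint continuity. -/
theorem linear_phase (d : ℕ) {Rm Rp wm wp r1 : ℝ} (hRm : 0 < Rm) (hRp : Rp < r1) :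
    ∃ Z Z1 : (ℝ × ℂ × ℂ × ℝ) → ℝ → ℂ,
      (∀ p ∈ PS Rm Rp wm wp,
        Sol d 0 p.2.2.2 (fun _ _ => 0) p.1 r1 p.2.1 p.2.2.1 (Z p) (Z1 p) ∧
        ContinuousOn (Z p) (Icc p.1 r1) ∧ ContinuousOn (Z1 p) (Icc p.1 r1) ∧
        RadODE d 0 p.2.2.2 (fun _ => 0) (Z p) (Z1 p) (Ioo p.1 r1) ∧
        Z p p.1 = p.2.1 ∧ Z1 p p.1 = p.2.2.1) ∧
      ContinuousOn (fun q : (ℝ × ℂ × ℂ × ℝ) × ℝ => Z q.1 q.2)
        {q | q.1 ∈ PS Rm Rp wm wp ∧ q.2 ∈ Icc q.1.1 r1} ∧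
      ContinuousOn (fun q : (ℝ × ℂ × ℂ × ℝ) × ℝ => Z1 q.1 q.2)
        {q | q.1 ∈ PS Rm Rp wm wp ∧ q.2 ∈ Icc q.1.1 r1} := by
  obtain ⟨Y, Y1, h, h1, h2⟩ := exists_sol_param d 0 (wm := wm) (wp := wp)
    (Φ := fun _ _ => 0) (K := 0) continuous_const (fun s => LipschitzWith.const 0) hRm hRp
  refine ⟨Y, Y1, fun p hp => ⟨h p hp, (h p hp).cY, (h p hp).cY1, ⟨(h p hp).hasDerivAt1, ?_⟩,
    (h p hp).init0, (h p hp).init1⟩, h1, h2⟩
  intro r hr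
  have := (h p hp).hasDerivAt2 r hr
  simpa using this

end Vale.Agent.P139.H505
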