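import Vale.Agent.P330.Brouwer

/-!
# P139 / H505 : the Poincaré–Miranda theorem on rectangles
-/

open Set

namespace Vale.Agent.P139.H505

/-- Poincaré–Miranda for the cube `[-1, 1]ⁿ`. -/
theorem miranda_cube {n : ℕ} (f : (Fin n → ℝ) → (Fin n → ℝ)) (hf : Continuous f)
    (hp : ∀ x, ‖x‖ ≤ 1 → ∀ i, x i = 1 → 0 ≤ f x i)
    (hm : ∀ x, ‖x‖ ≤ 1 → ∀ i, x i = -1 → f x i ≤ 0) : ∃ x, ‖x‖ ≤ 1 ∧ f x = 0 := by
  obtain ⟨x, hx, hfx⟩ := Vale.Agent.P330.brouwer_cube
    (fun x i => max (-1) (min 1 (x i - f x i))) (by fun_prop) (by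
      intro x _
      rw [pi_norm_le_iff_of_nonneg zero_le_one]
      intro i
      rw [Real.norm_eq_abs, abs_le]
      exact ⟨le_max_left _ _, max_le (by norm_num) (min_le_left _ _)⟩)
  refine ⟨x, hx, funext fun i => ?_⟩
  have h : max (-1) (min 1 (x i - f x i)) = x i := congrFun hfx i
  have hxi := (norm_le_pi_norm x i).trans hx
  rw [Real.norm_eq_abs, abs_le] at hxi
  rcases lt_trichotomy (f x i) 0 with h0 | h0 | h0
  · exfalso
    have h1 : x i = 1 := by
      by_contra hne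
      have h2 : x i < 1 := lt_of_le_of_ne hxi.2 hne
      rw [max_eq_right (le_min (by norm_num) (by linarith))] at h
      rcases min_choice 1 (x i - f x i) with h3 | h3 <;> rw [h3] at h <;> linarith
    exact absurd (hp x hx i h1) (not_le.2 h0)
  · exact h0
  · exfalso
    have h1 : x i = -1 := by
      by_contra hne
      have h2 : -1 < x i := lt_of_le_of_ne hxi.1 (Ne.symm hne)
      rw [min_eq_right (by linarith)] at h
      rcases max_choice (-1) (x i - f x i) with h3 | h3 <;> rw [h3] at h <;> linarith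
    exact absurd (hm x hx i h1) (not_le.2 h0)

/-- Poincaré–Miranda on a rectangle, for functions continuous on the rectangle only. -/
theorem miranda_rect {a b c e : ℝ} (hab : a ≤ b) (hce : c ≤ e) (f g : ℝ × ℝ → ℝ)
    (hf : ContinuousOn f (Icc a b ×ˢ Icc c e)) (hg : ContinuousOn g (Icc a b ×ˢ Icc c e))
    (hfa : ∀ y ∈ Icc c e, f (a, y) ≤ 0) (hfb : ∀ y ∈ Icc c e, 0 ≤ f (b, y))
    (hgc : ∀ x ∈ Icc a b, g (x, c) ≤ 0) (hge : ∀ x ∈ Icc a b, 0 ≤ g (x, e)) :
    ∃ x ∈ Icc a b, ∃ y ∈ Icc c e, f (x, y) = 0 ∧ g (x, y) = 0 := by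
  -- affine chart `[-1,1]² → rectangle`, clamped
  set cl : ℝ → ℝ := fun s => max (-1) (min 1 s) with hcl
  have hclc : Continuous cl := by fun_prop
  have hcl1 : ∀ s, -1 ≤ cl s := fun s => le_max_left _ _
  have hcl2 : ∀ s, cl s ≤ 1 := fun s => max_le (by norm_num) (min_le_left _ _)
  have hcle : ∀ s, -1 ≤ s → s ≤ 1 → cl s = s := fun s h1 h2 => by
    simp only [hcl]; rw [min_eq_right h2, max_eq_right h1]
  set X : ℝ → ℝ := fun s => a + (b - a) * ((cl s + 1) / 2) with hX
  set Y : ℝ → ℝ := fun s => c + (e - c) * ((cl s + 1) / 2) with hY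
  have hXc : Continuous X := by fun_prop
  have hYc : Continuous Y := by fun_prop
  have hXm : ∀ s, X s ∈ Icc a b := by
    intro s
    have h1 := hcl1 s
    have h2 := hcl2 s
    constructor
    · simp only [hX]; nlinarith
    · simp only [hX]; nlinarith
  have hYm : ∀ s, Y s ∈ Icc c e := by
    intro s
    have h1 := hcl1 s
    have h2 := hcl2 s
    constructor
    · simp only [hY]; nlinarith
    · simp only [hY]; nlinarith
  have hX1 : X 1 = b := by simp only [hX]; rw [hcle 1 (by norm_num) le_rfl]; ring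
  have hXm1 : X (-1) = a := by simp only [hX]; rw [hcle (-1) le_rfl (by norm_num)]; ring
  have hY1 : Y 1 = e := by simp only [hY]; rw [hcle 1 (by norm_num) le_rfl]; ring
  have hYm1 : Y (-1) = c := by simp only [hY]; rw [hcle (-1) le_rfl (by norm_num)]; ring
  have hmem : ∀ z : Fin 2 → ℝ, (X (z 0), Y (z 1)) ∈ Icc a b ×ˢ Icc c e := fun z =>
    mk_mem_prod (hXm _) (hYm _)
  have hpair : Continuous fun z : Fin 2 → ℝ => (X (z 0), Y (z 1)) := by fun_prop
  have hfc : Continuous fun z : Fin 2 → ℝ => f (X (z 0), Y (z 1)) :=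
    hf.comp_continuous hpair hmem
  have hgc' : Continuous fun z : Fin 2 → ℝ => g (X (z 0), Y (z 1)) :=
    hg.comp_continuous hpair hmem
  obtain ⟨z, _, hz⟩ := miranda_cube (n := 2)
    (fun z => ![f (X (z 0), Y (z 1)), g (X (z 0), Y (z 1))]) (by
      refine continuous_pi fun i => ?_
      fin_cases i
      · simpa using hfc
      · simpa using hgc') (by
      intro x _ i hi
      fin_cases i
      · simp only [Fin.zero_eta, Fin.isValue, Matrix.cons_val_zero] at hi ⊢
        rw [hi, hX1]; exact hfb _ (hYm _)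
      · simp only [Fin.mk_one, Fin.isValue, Matrix.cons_val_one] at hi ⊢
        rw [hi, hY1]; exact hge _ (hXm _)) (by
      intro x _ i hi
      fin_cases i
      · simp only [Fin.zero_eta, Fin.isValue, Matrix.cons_val_zero] at hi ⊢
        rw [hi, hXm1]; exact hfa _ (hYm _)
      · simp only [Fin.mk_one, Fin.isValue, Matrix.cons_val_one] at hi ⊢
        rw [hi, hYm1]; exact hgc _ (hXm _))
  refine ⟨X (z 0), hXm _, Y (z 1), hYm _, ?_, ?_⟩
  · have := congrFun hz 0
    simpa using this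
  · have := congrFun hz 1
    simpa using this

/-- Complex form of Poincaré–Miranda on a rectangle: `F` is complex valued and two real linear
functionals `l₁, l₂` with trivial common kernel have the sign pattern. -/
theorem miranda_complex {a b c e : ℝ} (hab : a ≤ b) (hce : c ≤ e) (F : ℝ × ℝ → ℂ)
    (hF : ContinuousOn F (Icc a b ×ˢ Icc c e)) (l₁ l₂ : ℂ →L[ℝ] ℝ)
    (hl : ∀ z, l₁ z = 0 → l₂ z = 0 → z = 0)
    (hfa : ∀ y ∈ Icc c e, l₁ (F (a, y)) ≤ 0) (hfb : ∀ y ∈ Icc c e, 0 ≤ l₁ (F (b, y)))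
    (hgc : ∀ x ∈ Icc a b, l₂ (F (x, c)) ≤ 0) (hge : ∀ x ∈ Icc a b, 0 ≤ l₂ (F (x, e))) :
    ∃ x ∈ Icc a b, ∃ y ∈ Icc c e, F (x, y) = 0 := by
  obtain ⟨x, hx, y, hy, h1, h2⟩ := miranda_rect hab hce (fun p => l₁ (F p)) (fun p => l₂ (F p))
    (l₁.continuous.comp_continuousOn hF) (l₂.continuous.comp_continuousOn hF) hfa hfb hgc hge
  exact ⟨x, hx, y, hy, hl _ h1 h2⟩

end Vale.Agent.P139.H505
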