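import Vale.Agent.P139.H505.PHit
import Vale.Agent.P139.H505.IVP2b
import Vale.Agent.P139.H505.Abel
import Vale.Agent.P139.H505.Miranda

/-!
# P139 / H505 : [P7] the matching theorem, with an abstract far field
-/

open Set Filter Topology Complex Metric
open Vale.Agent.P139.H460 Vale.Agent.P139.H499

namespace Vale.Agent.P139.H505

/-! ### Clamps -/

/-- clamp to `[a,b]` -/
noncomputable def clamp (a b x : ℝ) : ℝ := max a (min b x)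

theorem clamp_mem {a b : ℝ} (h : a ≤ b) (x : ℝ) : clamp a b x ∈ Icc a b :=
  ⟨le_max_left _ _, max_le h (min_le_left _ _)⟩

theorem clamp_eq {a b x : ℝ} (h : x ∈ Icc a b) : clamp a b x = x := by
  unfold clamp; rw [min_eq_right h.2, max_eq_right h.1]

theorem clamp_eq_left {a b x : ℝ} (h : x ≤ a) : clamp a b x = a := by
  unfold clamp; exact max_eq_left ((min_le_right _ _).trans h)

theorem clamp_eq_right {a b x : ℝ} (hab : a ≤ b) (h : b ≤ x) : clamp a b x = b := by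
  unfold clamp; rw [min_eq_left h, max_eq_right hab]

theorem mem_Ioo_of_clamp {a b x : ℝ} (hab : a ≤ b) (h1 : clamp a b x ≠ a) (h2 : clamp a b x ≠ b) :
    x ∈ Ioo a b ∧ clamp a b x = x := by
  have h3 : a < x := by
    by_contra h; push Not at h; exact h1 (clamp_eq_left h)
  have h4 : x < b := by
    by_contra h; push Not at h; exact h2 (clamp_eq_right hab h)
  exact ⟨⟨h3, h4⟩, clamp_eq ⟨h3.le, h4.le⟩⟩

theorem continuous_clamp (a b : ℝ) : Continuous (clamp a b) := by unfold clamp; fun_prop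

/-- Clip the derivative datum to `-c ≤ Re ≤ 0`, `|Im| ≤ c`. -/
noncomputable def clipc (c : ℝ) (z : ℂ) : ℂ := (clamp (-c) 0 z.re : ℂ) + (clamp (-c) c z.im : ℂ) * I

theorem clipc_re (c : ℝ) (z : ℂ) : (clipc c z).re = clamp (-c) 0 z.re := by simp [clipc]

theorem clipc_im (c : ℝ) (z : ℂ) : (clipc c z).im = clamp (-c) c z.im := by simp [clipc]

theorem continuous_clipc (c : ℝ) : Continuous (clipc c) := by
  unfold clipc
  have h1 := continuous_clamp (-c) 0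
  have h2 := continuous_clamp (-c) c
  exact (continuous_ofReal.comp (h1.comp continuous_re)).add
    ((continuous_ofReal.comp (h2.comp continuous_im)).mul continuous_const)

theorem clipc_eq {c : ℝ} {z : ℂ} (h : ‖z‖ ≤ c) (hre : z.re ≤ 0) : clipc c z = z := by
  have h1 := (abs_re_le_norm z).trans h
  have h2 := (abs_im_le_norm z).trans h
  rw [abs_le] at h1 h2
  apply Complex.ext
  · rw [clipc_re, clamp_eq ⟨h1.1, hre⟩]
  · rw [clipc_im, clamp_eq ⟨h2.1, h2.2⟩]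

theorem norm_clipc_le {c : ℝ} (hc : 0 ≤ c) (z : ℂ) : ‖clipc c z‖ ≤ 2 * c := by
  refine (norm_le_abs_re_add_abs_im _).trans ?_
  rw [clipc_re, clipc_im]
  have h1 := clamp_mem (by linarith : -c ≤ 0) z.re
  have h2 := clamp_mem (by linarith : -c ≤ c) z.im
  have h3 : |clamp (-c) 0 z.re| ≤ c := abs_le.2 ⟨h1.1, h1.2.trans hc⟩
  have h4 : |clamp (-c) c z.im| ≤ c := abs_le.2 ⟨h2.1, h2.2⟩
  linarith

theorem clipc_re_nonpos {c : ℝ} (hc : 0 ≤ c) (z : ℂ) : (clipc c z).re ≤ 0 := by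
  rw [clipc_re]; exact (clamp_mem (by linarith : -c ≤ 0) z.re).2

/-! ### The data of the matching -/

/-- The linear (`a = 0`) exterior slow solution with the sign data of the certificate. -/
structure LinExt (d : ℕ) (Rm Rp wm wp r1 : ℝ) (U U1 : ℝ → ℝ → ℂ) (k : ℝ → ℂ) : Prop where
  cU : ContinuousOn (fun p : ℝ × ℝ => U p.1 p.2) (Icc wm wp ×ˢ Icc Rm r1)
  cU1 : ContinuousOn (fun p : ℝ × ℝ => U1 p.1 p.2) (Icc wm wp ×ˢ Icc Rm r1)
  ode : ∀ w ∈ Icc wm wp, RadODE d 0 w (fun _ => 0) (U w) (U1 w) (Ioo Rm r1)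
  ne : ∀ w ∈ Icc wm wp, ∀ R ∈ Icc Rm Rp, U w R ≠ 0
  ne1 : ∀ w ∈ Icc wm wp, U w r1 ≠ 0
  hk : ∀ w ∈ Icc wm wp, U1 w r1 = k w * U w r1
  sRm : ∀ w ∈ Icc wm wp, 0 < (U1 w Rm / U w Rm).re
  sRp : ∀ w ∈ Icc wm wp, (U1 w Rp / U w Rp).re < 0
  swm : ∀ R ∈ Icc Rm Rp, 0 < (U1 wm R / U wm R).im
  swp : ∀ R ∈ Icc Rm Rp, (U1 wp R / U wp R).im < 0

/-- The nonlinear far field: `K m w y` is the derivative at `r1` of the slow solution with value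
`y` at `r1` (power `n = 2m`). -/
structure FarMap (wm wp θe : ℝ) (K : ℕ → ℝ → ℂ → ℂ) (k : ℝ → ℂ) : Prop where
  cont : ∀ᶠ m in atTop, ContinuousOn (fun p : ℝ × ℂ => K m p.1 p.2)
    (Icc wm wp ×ˢ closedBall 0 θe)
  lim : ∀ ε > 0, ∀ᶠ m in atTop, ∀ w ∈ Icc wm wp, ∀ y : ℂ, ‖y‖ ≤ θe → ‖K m w y - k w * y‖ ≤ ε

theorem LinExt.cont_N {d : ℕ} {Rm Rp wm wp r1 : ℝ} {U U1 : ℝ → ℝ → ℂ} {k : ℝ → ℂ}
    (h : LinExt d Rm Rp wm wp r1 U U1 k) (hr1 : Rp ≤ r1) :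
    ContinuousOn (fun p : ℝ × ℝ => U1 p.1 p.2 / U p.1 p.2) (Icc wm wp ×ˢ Icc Rm Rp) := by
  have hsub : Icc wm wp ×ˢ Icc Rm Rp ⊆ Icc wm wp ×ˢ Icc Rm r1 :=
    prod_mono_right (Icc_subset_Icc le_rfl hr1)
  exact (h.cU1.mono hsub).div (h.cU.mono hsub) fun p hp => h.ne p.1 hp.1 p.2 hp.2

/-- Margins by compactness. -/
theorem LinExt.margin {d : ℕ} {Rm Rp wm wp r1 : ℝ} {U U1 : ℝ → ℝ → ℂ} {k : ℝ → ℂ}
    (h : LinExt d Rm Rp wm wp r1 U U1 k) (hR : Rm ≤ Rp) (hw : wm ≤ wp) (hr1 : Rp ≤ r1) :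
    ∃ δ > 0, (∀ w ∈ Icc wm wp, δ ≤ (U1 w Rm / U w Rm).re) ∧
      (∀ w ∈ Icc wm wp, (U1 w Rp / U w Rp).re ≤ -δ) ∧
      (∀ R ∈ Icc Rm Rp, δ ≤ (U1 wm R / U wm R).im) ∧
      (∀ R ∈ Icc Rm Rp, (U1 wp R / U wp R).im ≤ -δ) := by
  have hN := h.cont_N hr1
  have hlow : ∀ {a b : ℝ} (_ : a ≤ b) {g : ℝ → ℝ}, ContinuousOn g (Icc a b) →
      (∀ x ∈ Icc a b, 0 < g x) → ∃ δ > 0, ∀ x ∈ Icc a b, δ ≤ g x := by
    intro a b hab g hg hpos
    obtain ⟨x, hx, hmin⟩ := isCompact_Icc.exists_isMinOn (nonempty_Icc.2 hab) hg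
    exact ⟨g x, hpos x hx, fun y hy => hmin hy⟩
  have c1 : ContinuousOn (fun w => (U1 w Rm / U w Rm).re) (Icc wm wp) :=
    continuous_re.comp_continuousOn (hN.comp (f := fun w : ℝ => (w, Rm)) (by fun_prop)
      fun w hw => ⟨hw, le_rfl, hR⟩)
  have c2 : ContinuousOn (fun w => -(U1 w Rp / U w Rp).re) (Icc wm wp) :=
    (continuous_re.comp_continuousOn (hN.comp (f := fun w : ℝ => (w, Rp)) (by fun_prop)
      fun w hw => ⟨hw, hR, le_rfl⟩)).neg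
  have c3 : ContinuousOn (fun R => (U1 wm R / U wm R).im) (Icc Rm Rp) :=
    continuous_im.comp_continuousOn (hN.comp (f := fun R : ℝ => (wm, R)) (by fun_prop)
      fun R hR => ⟨⟨le_rfl, hw⟩, hR⟩)
  have c4 : ContinuousOn (fun R => -(U1 wp R / U wp R).im) (Icc Rm Rp) :=
    (continuous_im.comp_continuousOn (hN.comp (f := fun R : ℝ => (wp, R)) (by fun_prop)
      fun R hR => ⟨⟨hw, le_rfl⟩, hR⟩)).neg
  obtain ⟨δ1, h1, h1'⟩ := hlow hw c1 h.sRm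
  obtain ⟨δ2, h2, h2'⟩ := hlow hw c2 fun w hw => neg_pos.2 (h.sRp w hw)
  obtain ⟨δ3, h3, h3'⟩ := hlow hR c3 h.swm
  obtain ⟨δ4, h4, h4'⟩ := hlow hR c4 fun R hR => neg_pos.2 (h.swp R hR)
  refine ⟨min (min δ1 δ2) (min δ3 δ4), lt_min (lt_min h1 h2) (lt_min h3 h4), ?_, ?_, ?_, ?_⟩
  · exact fun w hw => ((min_le_left _ _).trans (min_le_left _ _)).trans (h1' w hw)
  · intro w hw
    have := ((min_le_left (min δ1 δ2) (min δ3 δ4)).trans (min_le_right _ _)).trans (h2' w hw)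
    linarith
  · exact fun R hR => ((min_le_right _ _).trans (min_le_left _ _)).trans (h3' R hR)
  · intro R hR
    have := ((min_le_right (min δ1 δ2) (min δ3 δ4)).trans (min_le_right _ _)).trans (h4' R hR)
    linarith

/-- The factor in Abel's identity. -/
noncomputable def abf (d : ℕ) (U : ℝ → ℝ → ℂ) (r1 w R : ℝ) : ℂ :=
  U w r1 * abelW d r1 / (abelW d R * U w R)

theorem LinExt.cont_abf {d : ℕ} {Rm Rp wm wp r1 : ℝ} {U U1 : ℝ → ℝ → ℂ} {k : ℝ → ℂ}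
    (h : LinExt d Rm Rp wm wp r1 U U1 k) (hRm : 0 < Rm) (hRmr : Rm ≤ r1) (hr1 : Rp ≤ r1) :
    ContinuousOn (fun p : ℝ × ℝ => abf d U r1 p.1 p.2) (Icc wm wp ×ˢ Icc Rm Rp) := by
  have hsub : Icc wm wp ×ˢ Icc Rm Rp ⊆ Icc wm wp ×ˢ Icc Rm r1 :=
    prod_mono_right (Icc_subset_Icc le_rfl hr1)
  have c1 : ContinuousOn (fun p : ℝ × ℝ => U p.1 r1) (Icc wm wp ×ˢ Icc Rm Rp) :=
    h.cU.comp (f := fun p : ℝ × ℝ => (p.1, r1)) (by fun_prop) fun p hp => ⟨hp.1, hRmr, le_rfl⟩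
  have c2 : ContinuousOn (fun p : ℝ × ℝ => abelW d p.2) (Icc wm wp ×ˢ Icc Rm Rp) :=
    (continuous_abelW d).comp_continuousOn continuousOn_snd
  refine (c1.mul continuousOn_const).div (c2.mul (h.cU.mono hsub)) fun p hp => ?_
  exact mul_ne_zero (abelW_ne_zero (hRm.trans_le hp.2.1)) (h.ne p.1 hp.1 p.2 hp.2)

/-- Abel's identity in the form used for the matching. -/
theorem LinExt.abel_id {d : ℕ} (hd : 1 ≤ d) {Rm Rp wm wp r1 : ℝ} {U U1 : ℝ → ℝ → ℂ} {k : ℝ → ℂ}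
    (h : LinExt d Rm Rp wm wp r1 U U1 k) (hRm : 0 < Rm) (hr1 : Rp ≤ r1) {w R : ℝ}
    (hw : w ∈ Icc wm wp) (hR : R ∈ Icc Rm Rp) {Z Z1 : ℝ → ℂ} (cZ : ContinuousOn Z (Icc R r1))
    (cZ1 : ContinuousOn Z1 (Icc R r1)) (hZ : RadODE d 0 w (fun _ => 0) Z Z1 (Ioo R r1))
    (h0 : Z R = 1) (h1 : Z1 R = 0) :
    U1 w R / U w R = -((Z1 r1 - k w * Z r1) * abf d U r1 w R) := by
  have hR0 : 0 < R := hRm.trans_le hR.1
  have hRr : R ≤ r1 := hR.2.trans hr1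
  have hsub : Icc R r1 ⊆ Icc Rm r1 := Icc_subset_Icc hR.1 le_rfl
  have cU : ContinuousOn (U w) (Icc R r1) :=
    h.cU.comp (f := fun r : ℝ => (w, r)) (by fun_prop) fun r hr => ⟨hw, hsub hr⟩
  have cU1 : ContinuousOn (U1 w) (Icc R r1) :=
    h.cU1.comp (f := fun r : ℝ => (w, r)) (by fun_prop) fun r hr => ⟨hw, hsub hr⟩
  have hU : RadODE d 0 w (fun _ => 0) (U w) (U1 w) (Ioo R r1) :=
    ⟨fun r hr => (h.ode w hw).h1 r ⟨hR.1.trans_lt hr.1, hr.2⟩,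
      fun r hr => (h.ode w hw).h2 r ⟨hR.1.trans_lt hr.1, hr.2⟩⟩
  have key := abel_one_zero hd hR0 hRr cZ cZ1 cU cU1 hZ hU h0 h1
  have hne1 : abelW d R ≠ 0 := abelW_ne_zero hR0
  have hne2 : U w R ≠ 0 := h.ne w hw R hR
  rw [h.hk w hw] at key
  unfold abf
  field_simp
  linear_combination key

end Vale.Agent.P139.H505
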