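import Vale.Agent.P139.H505.Match

/-!
# P139 / H505 : [P7] the matching theorem
-/

open Set Filter Topology Complex Metric
open Vale.Agent.P139.H460 Vale.Agent.P139.H499

namespace Vale.Agent.P139.H505

/-- The funnel hypothesis: the linear solution with data `(1,0)` at `R` is `≤ θz` on
`[R + η0, r1]`. -/
def Funnel (d : ℕ) (Rm Rp wm wp η0 r1 θz : ℝ) : Prop :=
  ∀ w ∈ Icc wm wp, ∀ R ∈ Icc Rm Rp, ∀ Z Z1 : ℝ → ℂ, ContinuousOn Z (Icc R r1) →
    ContinuousOn Z1 (Icc R r1) → RadODE d 0 w (fun _ => 0) Z Z1 (Ioo R r1) → Z R = 1 → Z1 R = 0 →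
    ∀ r ∈ Icc (R + η0) r1, ‖Z r‖ ≤ θz

/-- The conclusion of the matching at a given `m`. -/
structure Matched (d m : ℕ) (Rm Rp wm wp η0 c C r1 ε : ℝ) (U U1 : ℝ → ℝ → ℂ)
    (K : ℕ → ℝ → ℂ → ℂ) (p : ℝ × ℝ) (τ : ℝ) (u : ℂ) (Y Y1 : ℝ → ℂ) : Prop where
  hp : p ∈ Icc (0:ℝ) 1 ×ˢ Icc wm wp
  hτ : τ ∈ Ioo Rm Rp
  first : FirstHit (2 * m) p.2 (Qf d (2 * m) p) τ
  hu : ‖u‖ = 1
  Yτ : Y τ = u * Qf d (2 * m) p τ
  Y1τ : Y1 τ = u * Qf1 d (2 * m) p τ
  Yval : Y τ = (((p.2 / 2) ^ (1 / ((2 * m : ℕ) : ℝ)) : ℝ) : ℂ)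
  Y1re : (Y1 τ).re ≤ 0
  Y1n : ‖Y1 τ‖ ≤ C / Real.sqrt ((2 * m : ℕ) : ℝ)
  cY : ContinuousOn Y (Icc τ r1)
  cY1 : ContinuousOn Y1 (Icc τ r1)
  ode : RadODE d (1 / ((2 * m : ℕ) : ℝ)) p.2 (fun r => ‖Y r‖ ^ (2 * m)) Y Y1 (Ioo τ r1)
  bd : ∀ r ∈ Icc τ r1, ‖Y r‖ ^ (2 * m) ≤ 1
  layer : ∀ r ∈ Icc τ (τ + η0),
    ‖Y r‖ ^ (2 * m) ≤ (p.2 / 2) * Real.exp (-(c * ((2 * m : ℕ) : ℝ) * (r - τ) ^ 2))
  mono : ∀ r ∈ Ioc τ (τ + η0), ((starRingEnd ℂ (Y r)) * Y1 r).re < 0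
  close : ∀ Z Z1 : ℝ → ℂ, ContinuousOn Z (Icc τ r1) → ContinuousOn Z1 (Icc τ r1) →
      RadODE d 0 p.2 (fun _ => 0) Z Z1 (Ioo τ r1) → Z τ = 1 → Z1 τ = 0 →
      ∀ r ∈ Icc τ r1, ‖Y r - Z r‖ ≤ C / Real.sqrt ((2 * m : ℕ) : ℝ) ∧
        ‖Y1 r - Z1 r‖ ≤ C / Real.sqrt ((2 * m : ℕ) : ℝ)
  far : Y1 r1 = K m p.2 (Y r1)
  nsmall : ‖U1 p.2 τ / U p.2 τ‖ ≤ ε

theorem tendsto_C_div_sqrt (C : ℝ) :
    Tendsto (fun m : ℕ => C / Real.sqrt ((2 * m : ℕ) : ℝ)) atTop (𝓝 0) := by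
  have h1 : Tendsto (fun m : ℕ => ((2 * m : ℕ) : ℝ)) atTop atTop := by
    have : Tendsto (fun m : ℕ => 2 * m) atTop atTop :=
      tendsto_id.const_mul_atTop' (by norm_num)
    exact tendsto_natCast_atTop_atTop.comp this
  exact (Real.tendsto_sqrt_atTop.comp h1).const_div_atTop C

/-- **[P7] the matching theorem.** -/
theorem matching {d : ℕ} (hd : 1 ≤ d) (hcore : CoreStatement d) (htr : TransitStatement d)
    {Rm Rp wm wp : ℝ} (hRm : 0 < Rm) (hR : Rm < Rp) (hRp4 : Rp < 4) (hwm : 0 < wm)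
    (hw : wm ≤ wp) (hwp : wp ≤ 1) :
    ∃ η0 > 0, ∃ c > 0, ∀ r1 > Rp + η0, ∀ θz ∈ Ico (0:ℝ) 1, ∀ θe > θz,
      Funnel d Rm Rp wm wp η0 r1 θz → ∀ (U U1 : ℝ → ℝ → ℂ) (k : ℝ → ℂ),
      LinExt d Rm Rp wm wp r1 U U1 k → ∀ K : ℕ → ℝ → ℂ → ℂ, FarMap wm wp θe K k →
      ∃ C > 0, ∀ ε > 0, ∀ᶠ m : ℕ in atTop, ∃ (p : ℝ × ℝ) (τ : ℝ) (u : ℂ) (Y Y1 : ℝ → ℂ),
        Matched d m Rm Rp wm wp η0 c C r1 ε U U1 K p τ u Y Y1 := by
  obtain ⟨η0, hη0, c, hc, htr⟩ := htr Rm Rp wm wp hRm hR.le hwm hw hwp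
  refine ⟨η0, hη0, c, hc, fun r1 hr1 θz hθz θe hθe hfun U U1 k hL K hK => ?_⟩
  have hRpr1 : Rp < r1 := by linarith
  -- the cap
  set η := η0 / 2 with hη
  have hηpos : 0 < η := by positivity
  set θ := (1 + max θz (Real.exp (-(c * η ^ 2)))) / 2 with hθ
  have hexp1 : Real.exp (-(c * η ^ 2)) < 1 := by
    rw [Real.exp_lt_one_iff]; have := mul_pos hc (pow_pos hηpos 2); linarith
  have hmax1 : max θz (Real.exp (-(c * η ^ 2))) < 1 := max_lt hθz.2 hexp1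
  have hθz' : θz < θ := by
    have := le_max_left θz (Real.exp (-(c * η ^ 2))); simp only [hθ]; linarith
  have hθexp : Real.exp (-(c * η ^ 2)) ≤ θ := by
    have := le_max_right θz (Real.exp (-(c * η ^ 2))); simp only [hθ]; linarith
  have hθ1 : θ < 1 := by simp only [hθ]; linarith
  have hθ0 : 0 < θ := hθz.1.trans_lt hθz'
  obtain ⟨Cc, hCc, Nc, hcore'⟩ := id hcore wm wp hwm hw hwp
  obtain ⟨Ct, hCt, Nt, htr⟩ := htr η ⟨hηpos, le_rfl⟩ θ ⟨hθ0, hθ1⟩ r1 hr1 (2 * Cc) (by positivity)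
  obtain ⟨Nh, hhit⟩ := hit_package hd hcore hwm hw hwp
  obtain ⟨δ, hδ, m1, m2, m3, m4⟩ := hL.margin hR.le hw hRpr1.le
  -- bounds for `k` and the Abel factor
  obtain ⟨Mk, hMk⟩ : ∃ M, ∀ w ∈ Icc wm wp, ‖k w‖ ≤ M := by
    have hc1 : ContinuousOn (fun w => U1 w r1 / U w r1) (Icc wm wp) :=
      (hL.cU1.comp (f := fun w : ℝ => (w, r1)) (by fun_prop)
        fun w hw => ⟨hw, (hR.le.trans hRpr1.le), le_rfl⟩).div
      (hL.cU.comp (f := fun w : ℝ => (w, r1)) (by fun_prop)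
        fun w hw => ⟨hw, (hR.le.trans hRpr1.le), le_rfl⟩) fun w hw => hL.ne1 w hw
    obtain ⟨M, hM⟩ := isCompact_Icc.exists_bound_of_continuousOn hc1
    refine ⟨M, fun w hw => ?_⟩
    have := hM w hw
    rwa [hL.hk w hw, mul_div_assoc, div_self (hL.ne1 w hw), mul_one] at this
  obtain ⟨Ma, hMa⟩ : ∃ M, ∀ q ∈ Icc wm wp ×ˢ Icc Rm Rp, ‖abf d U r1 q.1 q.2‖ ≤ M :=
    (isCompact_Icc.prod isCompact_Icc).exists_bound_of_continuousOn
      (hL.cont_abf hRm (hR.le.trans hRpr1.le) hRpr1.le)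
  set C := max (2 * Cc) Ct with hC
  have hCpos : 0 < C := lt_max_of_lt_right hCt
  refine ⟨C, hCpos, fun ε hε => ?_⟩
  -- the accuracy needed
  set ε' := min (δ / 2) ε with hε'
  have hε'pos : 0 < ε' := lt_min (by positivity) hε
  have hMk0 : 0 ≤ Mk := (norm_nonneg _).trans (hMk wm ⟨le_rfl, hw⟩)
  have hMa0 : 0 ≤ Ma := (norm_nonneg _).trans (hMa (wm, Rm) ⟨⟨le_rfl, hw⟩, ⟨le_rfl, hR.le⟩⟩)
  set ε1 := ε' / (2 * (Ma + 1)) with hε1
  have hε1pos : 0 < ε1 := by positivity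
  have e1 : ∀ᶠ m : ℕ in atTop, (1 + Mk) * (Ct / Real.sqrt ((2 * m : ℕ) : ℝ)) < ε1 := by
    have h := (tendsto_C_div_sqrt Ct).const_mul (1 + Mk)
    rw [mul_zero] at h
    exact h.eventually (gt_mem_nhds hε1pos)
  have e2 : ∀ᶠ m : ℕ in atTop, Ct / Real.sqrt ((2 * m : ℕ) : ℝ) < min (θe - θz) (θ - θz) :=
    (tendsto_C_div_sqrt Ct).eventually (gt_mem_nhds (lt_min (by linarith) (by linarith)))
  have e3 : ∀ N : ℕ, ∀ᶠ m : ℕ in atTop, N ≤ 2 * m := fun N => by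
    filter_upwards [eventually_ge_atTop N] with m hm
    omega
  filter_upwards [e1, e2, e3 Nc, e3 Nt, e3 Nh, e3 1, hK.cont, hK.lim ε1 hε1pos]
    with m he1 he2 hNc hNt hNh hN1 hKc hKl
  set n := 2 * m with hn
  have hn0 : (0:ℝ) < (n:ℝ) := by exact_mod_cast hN1
  have hsq : 0 < Real.sqrt (n:ℝ) := Real.sqrt_pos.2 hn0
  obtain ⟨ht1, ht2, ht3, ht4, ht5, ht6, ht7⟩ := hhit n hNh 4 ⟨by norm_num, le_rfl⟩
  set S : Set (ℝ × ℝ) := Icc 0 1 ×ˢ Icc wm wp with hS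
  -- the matching data
  set ρ : ℝ × ℝ → ℝ := fun p => clamp Rm Rp (tauf d n 4 p) with hρ
  have hρm : ∀ p, ρ p ∈ Icc Rm Rp := fun p => clamp_mem hR.le _
  have hρc : ContinuousOn ρ S := (continuous_clamp Rm Rp).comp_continuousOn ht1
  have hQne : ∀ p ∈ S, Qf d n p (tauf d n 4 p) ≠ 0 := by
    intro p hp
    have h2 : 0 < p.2 := hwm.trans_le hp.2.1
    have hge : 0 ≤ ff d n p (tauf d n 4 p) := by
      rcases (ht2 p hp).1.lt_or_eq with h0 | h0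
      · have hcw : ContinuousWithinAt (ff d n p) (Ico 0 (tauf d n 4 p)) (tauf d n 4 p) := by
          have : Continuous (ff d n p) := by
            have := continuous_Qf d n p
            unfold ff; fun_prop
          exact this.continuousWithinAt
        have hcl : tauf d n 4 p ∈ closure (Ico 0 (tauf d n 4 p)) := by
          rw [closure_Ico h0.ne]; exact ⟨h0.le, le_rfl⟩
        have : (𝓝[Ico 0 (tauf d n 4 p)] (tauf d n 4 p)).NeBot :=
          mem_closure_iff_nhdsWithin_neBot.1 hcl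
        refine ge_of_tendsto hcw ?_
        filter_upwards [self_mem_nhdsWithin] with r hr
        exact (pos_of_lt_hit (by norm_num) hr.1 hr.2).le
      · rw [← h0]
        unfold ff
        rw [Qf_zero, norm_real, Real.norm_eq_abs, abs_of_pos (q0f_pos hp.1.1 h2),
          q0f_pow hN1 hp.1.1 h2.le]
        have h3 : 0 ≤ p.1 := hp.1.1
        have h4 : 0 ≤ 3 / 2 * p.1 * p.2 := by positivity
        linarith
    intro h0
    unfold ff at hge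
    rw [h0, norm_zero, zero_pow (by omega)] at hge
    linarith
  set u : ℝ × ℝ → ℂ := fun p => (starRingEnd ℂ) (Qf d n p (tauf d n 4 p)) /
    (‖Qf d n p (tauf d n 4 p)‖ : ℂ) with hu
  have huc : ContinuousOn u S := by
    refine (continuous_conj.comp_continuousOn ht6).div
      (continuous_ofReal.comp_continuousOn ht6.norm) fun p hp => ?_
    exact_mod_cast (norm_pos_iff.2 (hQne p hp)).ne'
  set cn : ℝ := Cc / Real.sqrt (n:ℝ) with hcn
  have hcn0 : 0 ≤ cn := by positivity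
  set ζ : ℝ × ℝ → ℂ := fun p => clipc cn (u p * Qf1 d n p (tauf d n 4 p)) with hζ
  have hζc : ContinuousOn ζ S := (continuous_clipc cn).comp_continuousOn (huc.mul ht7)
  set y0 : ℝ × ℝ → ℂ := fun p => (((p.2 / 2) ^ (1 / (n:ℝ)) : ℝ) : ℂ) with hy0
  have hy0c : ContinuousOn y0 S := by
    refine continuous_ofReal.comp_continuousOn (ContinuousOn.rpow_const (by fun_prop) ?_)
    intro p hp
    left
    have h2 : 0 < p.2 := hwm.trans_le hp.2.1
    positivity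
  set P : ℝ × ℝ → ℝ × ℂ × ℂ × ℝ := fun p => (ρ p, y0 p, ζ p, p.2) with hP
  have hPm : ∀ p ∈ S, P p ∈ PS Rm Rp wm wp := fun p hp => ⟨hρm p, hp.2⟩
  have hPc : ContinuousOn P S := hρc.prodMk (hy0c.prodMk (hζc.prodMk continuousOn_snd))
  obtain ⟨Y, Y1, hY, hYc, hY1c⟩ := second_phase d n (η := η) hθ0.le hθ1.le (wm := wm) (wp := wp)
    hRm hRpr1
  obtain ⟨Z, Z1, hZ, -, -⟩ := linear_phase d (wm := wm) (wp := wp) hRm hRpr1
  have hYe : ContinuousOn (fun p => Y (P p) r1) S := (continuousOn_end hRpr1 hYc).comp hPc hPm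
  have hY1e : ContinuousOn (fun p => Y1 (P p) r1) S := (continuousOn_end hRpr1 hY1c).comp hPc hPm
  -- transit
  have hT : ∀ p ∈ S, _ := fun p hp => htr n hNt p.2 hp.2 (ρ p) (hρm p) (Y (P p)) (Y1 (P p))
    (hY (P p) (hPm p hp)).2.1 (hY (P p) (hPm p hp)).2.2.1 (hY (P p) (hPm p hp)).2.2.2.1
    (hY (P p) (hPm p hp)).2.2.2.2.1
    (by rw [(hY (P p) (hPm p hp)).2.2.2.2.2]; exact clipc_re_nonpos hcn0 _)
    (by
      rw [(hY (P p) (hPm p hp)).2.2.2.2.2]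
      refine (norm_clipc_le hcn0 _).trans (le_of_eq ?_)
      simp only [hcn]; ring)
  have hZp : ∀ p ∈ S, (ρ p, (1:ℂ), (0:ℂ), p.2) ∈ PS Rm Rp wm wp := fun p hp => ⟨hρm p, hp.2⟩
  have hZr : ∀ p ∈ S, ∀ r ∈ Icc (ρ p + η0) r1, ‖Z (ρ p, 1, 0, p.2) r‖ ≤ θz := by
    intro p hp
    have h := hZ _ (hZp p hp)
    exact hfun p.2 hp.2 (ρ p) (hρm p) _ _ h.2.1 h.2.2.1 h.2.2.2.1 h.2.2.2.2.1 h.2.2.2.2.2
  have hclose : ∀ p ∈ S, ∀ r ∈ Icc (ρ p) r1,
      ‖Y (P p) r - Z (ρ p, 1, 0, p.2) r‖ ≤ Ct / Real.sqrt n ∧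
      ‖Y1 (P p) r - Z1 (ρ p, 1, 0, p.2) r‖ ≤ Ct / Real.sqrt n := by
    intro p hp
    have h := hZ _ (hZp p hp)
    exact (hT p hp).2.2 _ _ h.2.1 h.2.2.1 h.2.2.2.1 h.2.2.2.2.1 h.2.2.2.2.2
  have hr1m : ∀ p, r1 ∈ Icc (ρ p) r1 := fun p => ⟨(hρm p).2.trans hRpr1.le, le_rfl⟩
  have hYend : ∀ p ∈ S, ∀ r ∈ Icc (ρ p + η0) r1, ‖Y (P p) r‖ ≤ θz + Ct / Real.sqrt n := by
    intro p hp r hr
    have h1 := hZr p hp r hr
    have h2 := (hclose p hp r ⟨by linarith [hr.1], hr.2⟩).1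
    calc ‖Y (P p) r‖ = ‖Z (ρ p, 1, 0, p.2) r + (Y (P p) r - Z (ρ p, 1, 0, p.2) r)‖ := by
          congr 1; ring
      _ ≤ _ := (norm_add_le _ _).trans (add_le_add h1 h2)
  have hr1e : ∀ p, r1 ∈ Icc (ρ p + η0) r1 := fun p => ⟨by linarith [(hρm p).2], le_rfl⟩
  have hYθe : ∀ p ∈ S, ‖Y (P p) r1‖ ≤ θe := by
    intro p hp
    have h1 := hYend p hp r1 (hr1e p)
    have h2 := he2.le.trans (min_le_left _ _)
    linarith
  -- mismatch
  set mis : ℝ × ℝ → ℂ := fun p => Y1 (P p) r1 - K m p.2 (Y (P p) r1) with hmis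
  have hmisc : ContinuousOn mis S := by
    refine hY1e.sub ?_
    exact hKc.comp (f := fun p : ℝ × ℝ => (p.2, Y (P p) r1)) (continuousOn_snd.prodMk hYe)
      fun p hp => ⟨hp.2, mem_closedBall_zero_iff.2 (hYθe p hp)⟩
  set G : ℝ × ℝ → ℂ := fun p => -(mis p * abf d U r1 p.2 (ρ p)) with hG
  have hGc : ContinuousOn G S := by
    refine (hmisc.mul ?_).neg
    exact (hL.cont_abf hRm (hR.le.trans hRpr1.le) hRpr1.le).comp
      (f := fun p : ℝ × ℝ => (p.2, ρ p)) (continuousOn_snd.prodMk hρc) fun p hp => ⟨hp.2, hρm p⟩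
  -- comparison with `N`
  have hGN : ∀ p ∈ S, ‖G p - U1 p.2 (ρ p) / U p.2 (ρ p)‖ ≤ ε' := by
    intro p hp
    have h := hZ _ (hZp p hp)
    rw [hL.abel_id hd hRm hRpr1.le hp.2 (hρm p) h.2.1 h.2.2.1 h.2.2.2.1 h.2.2.2.2.1 h.2.2.2.2.2]
    have e : G p - -((Z1 (ρ p, 1, 0, p.2) r1 - k p.2 * Z (ρ p, 1, 0, p.2) r1) *
        abf d U r1 p.2 (ρ p)) =
        -(((Y1 (P p) r1 - Z1 (ρ p, 1, 0, p.2) r1)
          - (K m p.2 (Y (P p) r1) - k p.2 * Y (P p) r1)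
          - k p.2 * (Y (P p) r1 - Z (ρ p, 1, 0, p.2) r1)) * abf d U r1 p.2 (ρ p)) := by
      simp only [hG, hmis]; ring
    rw [e, norm_neg, norm_mul]
    have h1 := (hclose p hp r1 (hr1m p)).1
    have h2 := (hclose p hp r1 (hr1m p)).2
    have h3 := hKl p.2 hp.2 (Y (P p) r1) (hYθe p hp)
    have h4 : ‖(Y1 (P p) r1 - Z1 (ρ p, 1, 0, p.2) r1)
          - (K m p.2 (Y (P p) r1) - k p.2 * Y (P p) r1)
          - k p.2 * (Y (P p) r1 - Z (ρ p, 1, 0, p.2) r1)‖ ≤ 2 * ε1 := by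
      refine (norm_sub_le _ _).trans ?_
      have h5 := norm_sub_le (Y1 (P p) r1 - Z1 (ρ p, 1, 0, p.2) r1)
        (K m p.2 (Y (P p) r1) - k p.2 * Y (P p) r1)
      have h6 : ‖k p.2 * (Y (P p) r1 - Z (ρ p, 1, 0, p.2) r1)‖ ≤
          Mk * (Ct / Real.sqrt (n:ℝ)) := by
        rw [norm_mul]
        exact mul_le_mul (hMk p.2 hp.2) h1 (norm_nonneg _) hMk0
      have h7 : (1 + Mk) * (Ct / Real.sqrt (n:ℝ)) < ε1 := he1
      linarith
    have h5 : ‖abf d U r1 p.2 (ρ p)‖ ≤ Ma := hMa (p.2, ρ p) ⟨hp.2, hρm p⟩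
    calc _ ≤ (2 * ε1) * Ma := mul_le_mul h4 h5 (norm_nonneg _) (by positivity)
      _ ≤ ε' := by
        simp only [hε1]
        rw [mul_div_assoc', div_mul_eq_mul_div, div_le_iff₀ (by positivity)]
        have h6 : 0 ≤ ε' := hε'pos.le
        linarith
  have hε'δ : ε' ≤ δ / 2 := min_le_left _ _
  have hρ0 : ∀ w ∈ Icc wm wp, ρ (0, w) = Rm := fun w hw => by
    simp only [hρ]; rw [ht3 w hw]; exact clamp_eq_left hRm.le
  have hρ1 : ∀ w ∈ Icc wm wp, ρ (1, w) = Rp := fun w hw => by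
    simp only [hρ]; rw [ht4 w hw]; exact clamp_eq_right hR.le hRp4.le
  have hre : ∀ p ∈ S, |(G p).re - (U1 p.2 (ρ p) / U p.2 (ρ p)).re| ≤ δ / 2 := fun p hp => by
    rw [← sub_re]; exact (abs_re_le_norm _).trans ((hGN p hp).trans hε'δ)
  have him : ∀ p ∈ S, |(G p).im - (U1 p.2 (ρ p) / U p.2 (ρ p)).im| ≤ δ / 2 := fun p hp => by
    rw [← sub_im]; exact (abs_im_le_norm _).trans ((hGN p hp).trans hε'δ)
  obtain ⟨t, htm, w, hwm', hz1, hz2⟩ := miranda_rect (zero_le_one) hw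
    (fun p => -(G p).re) (fun p => -(G p).im)
    (continuous_re.comp_continuousOn hGc).neg (continuous_im.comp_continuousOn hGc).neg
    (by
      intro w hw'
      have hp : ((0:ℝ), w) ∈ S := ⟨⟨le_rfl, zero_le_one⟩, hw'⟩
      have h1 := abs_le.1 (hre _ hp)
      have h2 := m1 w hw'
      simp only [hρ0 w hw'] at h1
      linarith [h1.1])
    (by
      intro w hw'
      have hp : ((1:ℝ), w) ∈ S := ⟨⟨zero_le_one, le_rfl⟩, hw'⟩
      have h1 := abs_le.1 (hre _ hp)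
      have h2 := m2 w hw'
      simp only [hρ1 w hw'] at h1
      linarith [h1.2])
    (by
      intro t ht'
      have hp : (t, wm) ∈ S := ⟨ht', le_rfl, hw⟩
      have h1 := abs_le.1 (him _ hp)
      have h2 := m3 (ρ (t, wm)) (hρm _)
      simp only at h1
      linarith [h1.1])
    (by
      intro t ht'
      have hp : (t, wp) ∈ S := ⟨ht', hw, le_rfl⟩
      have h1 := abs_le.1 (him _ hp)
      have h2 := m4 (ρ (t, wp)) (hρm _)
      simp only at h1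
      linarith [h1.2])
  set p : ℝ × ℝ := (t, w) with hpdef
  have hp : p ∈ S := ⟨htm, hwm'⟩
  have hG0 : G p = 0 := by
    apply Complex.ext
    · simpa using hz1
    · simpa using hz2
  have hNs : ‖U1 p.2 (ρ p) / U p.2 (ρ p)‖ ≤ ε' := by
    have := hGN p hp
    rwa [hG0, zero_sub, norm_neg] at this
  have hmis0 : mis p = 0 := by
    have h1 : mis p * abf d U r1 p.2 (ρ p) = 0 := by
      have : G p = -(mis p * abf d U r1 p.2 (ρ p)) := rfl
      rw [hG0] at this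
      exact neg_eq_zero.1 this.symm
    refine (mul_eq_zero.1 h1).resolve_right ?_
    unfold abf
    refine div_ne_zero (mul_ne_zero (hL.ne1 _ hp.2) (abelW_ne_zero (by linarith))) ?_
    exact mul_ne_zero (abelW_ne_zero (hRm.trans_le (hρm p).1)) (hL.ne _ hp.2 _ (hρm p))
  have hρRm : clamp Rm Rp (tauf d n 4 p) ≠ Rm := by
    intro h
    have h1 : ρ p = Rm := h
    rw [h1] at hNs
    have h2 := (re_le_norm _).trans hNs
    have h3 := m1 p.2 hp.2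
    linarith
  have hρRp : clamp Rm Rp (tauf d n 4 p) ≠ Rp := by
    intro h
    have h1 : ρ p = Rp := h
    rw [h1] at hNs
    have h2 := (abs_re_le_norm _).trans hNs
    have h3 := m2 p.2 hp.2
    have h4 := (abs_le.1 h2).1
    linarith
  obtain ⟨hτ, hτρ⟩ := mem_Ioo_of_clamp hR.le hρRm hρRp
  have hρτ : ρ p = tauf d n 4 p := hτρ
  have hp2 : 0 < p.2 := hwm.trans_le hp.2.1
  have hFH := ht5 p hp (hRm.trans hτ.1) (hτ.2.trans hRp4)
  have hcoreP := hcore' n hNc p.2 hp.2 (q0f n p) (q0f_pos hp.1.1 hp2) 5 (tauf d n 4 p)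
    (by linarith [hτ.2]) (by linarith [hτ.2]) (Qf d n p) (Qf1 d n p) (regSol_Qf hd n p _) hFH
  have hQn := hQne p hp
  have hQnpos : 0 < ‖Qf d n p (tauf d n 4 p)‖ := norm_pos_iff.2 hQn
  have hunorm : ‖u p‖ = 1 := by
    simp only [hu]
    rw [norm_div, RCLike.norm_conj, norm_real, norm_norm, div_self hQnpos.ne']
  have huQ : u p * Qf d n p (tauf d n 4 p) = (‖Qf d n p (tauf d n 4 p)‖ : ℂ) := by
    simp only [hu]
    rw [div_mul_eq_mul_div, mul_comm, mul_conj, normSq_eq_norm_sq]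
    push_cast
    field_simp
  have hclip : ζ p = u p * Qf1 d n p (tauf d n 4 p) := by
    refine clipc_eq ?_ ?_
    · rw [norm_mul, hunorm, one_mul]
      exact hcoreP.2.1 _ ⟨(hRm.trans hτ.1).le, le_rfl⟩
    · have h1 := hcoreP.2.2.1
      have h2 : u p * Qf1 d n p (tauf d n 4 p) = ((1 / ‖Qf d n p (tauf d n 4 p)‖ : ℝ) : ℂ) *
          ((starRingEnd ℂ) (Qf d n p (tauf d n 4 p)) * Qf1 d n p (tauf d n 4 p)) := by
        simp only [hu]
        push_cast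
        field_simp
      rw [h2, re_ofReal_mul]
      exact (mul_neg_of_pos_of_neg (by positivity) h1).le
  have hval : ‖Qf d n p (tauf d n 4 p)‖ = (p.2 / 2) ^ (1 / (n:ℝ)) := by
    have h1 := hFH.hit
    rw [← h1, ← Real.rpow_natCast, ← Real.rpow_mul hQnpos.le]
    have : (n:ℝ) * (1 / (n:ℝ)) = 1 := by field_simp
    rw [this, Real.rpow_one]
  have hYp := hY (P p) (hPm p hp)
  have hTp := hT p hp
  -- the cap is inactive
  have hcap : ∀ r ∈ Icc (ρ p) r1, ‖Y (P p) r‖ ^ n ≤ omg n η θ (r - ρ p) ∧ ‖Y (P p) r‖ ^ n ≤ 1 := by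
    intro r hr
    have hw1 : p.2 ≤ 1 := hp.2.2.trans hwp
    rcases le_total r (ρ p + η0) with h1 | h1
    · have h2 := hTp.1 r ⟨hr.1, h1⟩
      have hexp : Real.exp (-(c * n * (r - ρ p) ^ 2)) ≤ 1 := by
        rw [Real.exp_le_one_iff]
        have : 0 ≤ c * n * (r - ρ p) ^ 2 := by positivity
        linarith
      have h3 : ‖Y (P p) r‖ ^ n ≤ p.2 / 2 :=
        h2.trans (mul_le_of_le_one_right (by positivity) hexp)
      refine ⟨?_, by linarith⟩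
      rcases le_total (r - ρ p) η with h4 | h4
      · -- `omg = 4`
        have : (4:ℝ) ≤ omg n η θ (r - ρ p) := by
          unfold omg
          refine le_max_of_le_right (le_min le_rfl ?_)
          have : (r - ρ p) / η ≤ 1 := (div_le_one hηpos).2 h4
          linarith
        linarith
      · refine le_trans ?_ (le_max_left _ _)
        have h5 : Real.exp (-(c * n * (r - ρ p) ^ 2)) ≤ Real.exp (-(c * η ^ 2)) ^ n := by
          rw [← Real.exp_nat_mul]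
          apply Real.exp_le_exp.2
          have h6 : η ^ 2 ≤ (r - ρ p) ^ 2 := pow_le_pow_left₀ hηpos.le h4 2
          have h7 : c * n * η ^ 2 ≤ c * n * (r - ρ p) ^ 2 := by gcongr
          linarith
        have h6 : Real.exp (-(c * η ^ 2)) ^ n ≤ θ ^ n := by gcongr
        have h7 : 0 ≤ Real.exp (-(c * n * (r - ρ p) ^ 2)) := (Real.exp_pos _).le
        have h8 : (p.2 / 2) * Real.exp (-(c * n * (r - ρ p) ^ 2)) ≤
            Real.exp (-(c * n * (r - ρ p) ^ 2)) := mul_le_of_le_one_left h7 (by linarith)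
        exact h2.trans (h8.trans (h5.trans h6))
    · have h2 := hYend p hp r ⟨h1, hr.2⟩
      have h3 : ‖Y (P p) r‖ ≤ θ := by
        have := he2.le.trans (min_le_right _ _)
        linarith
      have h4 : ‖Y (P p) r‖ ^ n ≤ θ ^ n := by gcongr
      exact ⟨h4.trans (le_max_left _ _), h4.trans (pow_le_one₀ hθ0.le hθ1.le)⟩
  have hρP : (P p).1 = tauf d n 4 p := hρτ
  have hPρ : (P p).1 = ρ p := rfl
  refine ⟨p, tauf d n 4 p, u p, Y (P p), Y1 (P p), ?_⟩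
  rw [hρτ] at hcap hNs hTp
  have hYp1 := hYp.2.1
  have hYp2 := hYp.2.2.1
  have hYp3 := hYp.2.2.2.1
  have hYp4 := hYp.2.2.2.2.1
  have hYp5 := hYp.2.2.2.2.2
  rw [hρP] at hYp1 hYp2 hYp3 hYp4 hYp5
  exact {
    hp := hp
    hτ := hτ
    first := hFH
    hu := hunorm
    Yτ := by
      rw [hYp4, huQ, hval]
    Y1τ := by
      rw [hYp5]; exact hclip
    Yval := hYp4
    Y1re := by rw [hYp5]; exact clipc_re_nonpos hcn0 _
    Y1n := by
      rw [hYp5]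
      have h1 : ‖(P p).2.2.1‖ ≤ 2 * cn := norm_clipc_le hcn0 _
      refine h1.trans ?_
      simp only [hcn, hC]
      rw [← mul_div_assoc]
      gcongr
      exact le_max_left _ _
    cY := hYp1
    cY1 := hYp2
    ode := by
      refine ⟨hYp3.h1, fun r hr => ?_⟩
      have h1 := hYp3.h2 r hr
      have h2 := (hcap r ⟨hr.1.le, hr.2.le⟩).1
      simp only [min_eq_left h2] at h1
      exact h1
    bd := fun r hr => (hcap r hr).2
    layer := fun r hr => hTp.1 r hr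
    mono := fun r hr => hTp.2.1 r hr
    close := fun Zf Z1f c1 c2 h1 h2 h3 r hr => by
      have h4 := hTp.2.2 Zf Z1f c1 c2 h1 h2 h3 r hr
      have h5 : Ct / Real.sqrt (n:ℝ) ≤ C / Real.sqrt (n:ℝ) := by
        gcongr; exact le_max_right _ _
      exact ⟨h4.1.trans h5, h4.2.trans h5⟩
    far := sub_eq_zero.1 hmis0
    nsmall := hNs.trans (min_le_right _ _) }

end Vale.Agent.P139.H505
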