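import Vale.Agent.P139.H505.Glue
import Vale.Agent.P139.BU.UP

/-!
# P139 / H505 : facts for one matched profile

`q = Qf d (2m) p`, `q1 = Qf1 d (2m) p` (the capped regular solution): derivatives, the equation,
evenness, nonvanishing (flux identity), the potential is `≤ 4` everywhere.
-/

open Set Filter Topology Complex Metric
open scoped NNReal ComplexConjugate
open Vale.Agent.P139.H460 Vale.Agent.P139.H499 Vale.Agent.P139.BU

namespace Vale.Agent.P139.H505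

theorem one_div_eq_aa (m : ℕ) : (1 / ((2 * m : ℕ) : ℝ)) = aa m := by
  unfold aa; push_cast; ring

theorem W1_eq_norm_pow (m : ℕ) (z : ℂ) : W1 m z = ((‖z‖ ^ (2 * m) : ℝ) : ℂ) := by
  unfold W1
  rw [Complex.mul_conj, Complex.normSq_eq_norm_sq, pow_mul]
  push_cast
  rfl

/-- The far field: an exact solution on `[r1, ∞)`, decaying. -/
structure FarSol (d m : ℕ) (w r1 θf : ℝ) (y k : ℂ) (Qb Qb1 : ℝ → ℂ) : Prop where
  ode : RadODE d (aa m) w (fun r => ‖Qb r‖ ^ (2 * m)) Qb Qb1 (Ici r1)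
  v0 : Qb r1 = y
  v1 : Qb1 r1 = k
  dec : ∀ r, r1 ≤ r → ‖Qb r‖ ≤ θf * (1 + r) ^ (-(2 * aa m))

theorem hasDerivAt_Qf (d n : ℕ) (p : ℝ × ℝ) (r : ℝ) : HasDerivAt (Qf d n p) (Qf1 d n p r) r :=
  hasDerivAt_cQ d n _ _ r

theorem deriv_Qf (d n : ℕ) (p : ℝ × ℝ) : deriv (Qf d n p) = Qf1 d n p :=
  funext fun r => (hasDerivAt_Qf d n p r).deriv

/-- `q` is even. -/
theorem Qf_neg (d n : ℕ) (p : ℝ × ℝ) (r : ℝ) : Qf d n p (-r) = Qf d n p r := by
  unfold Qf cQ radU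
  rw [neg_sq]

/-! ### The flux identity -/

theorem hasDerivAt_fluxF {d : ℕ} (hd : 1 ≤ d) {a w : ℝ} {P : ℝ → ℝ} {Q Q1 : ℝ → ℂ}
    (h : RadODE d a w P Q Q1 (Ioi 0)) {r : ℝ} (hr : 0 < r) :
    HasDerivAt (fun r : ℝ => r ^ (d - 1) * ((Q1 r * conj (Q r)).im + r / 4 * ‖Q r‖ ^ 2))
      ((d / 4 - a) * r ^ (d - 1) * ‖Q r‖ ^ 2) r := by
  have h1 := h.h1 r hr
  have h2 := h.h2 r hr
  have hc : HasDerivAt (fun r => conj (Q r)) (conj (Q1 r)) r := by
    exact Complex.conjCLE.toContinuousLinearMap.hasFDerivAt.comp_hasDerivAt r h1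
  have h3 := h2.mul hc
  have h4 : HasDerivAt (fun r => (Q1 r * conj (Q r)).im) _ r :=
    (Complex.imCLM.hasFDerivAt.comp_hasDerivAt r h3)
  have h5 : HasDerivAt (fun r => ‖Q r‖ ^ 2) (2 * (conj (Q r) * Q1 r).re) r := by
    have h := h1.norm_sq
    convert h using 1
    rw [Complex.inner, mul_comm (conj (Q r))]
  have h6 : HasDerivAt (fun r : ℝ => r / 4) (1 / 4) r := (hasDerivAt_id r).div_const 4
  have h7 := (h4.add (h6.mul h5))
  have h8 := (hasDerivAt_pow (d - 1) r).mul h7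
  refine h8.congr_deriv ?_
  have hr0 : r ≠ 0 := hr.ne'
  have hd1 : ((d - 1 : ℕ) : ℝ) = (d : ℝ) - 1 := by push_cast [Nat.cast_sub hd]; ring
  simp only [Complex.imCLM_apply, Pi.add_apply, Pi.mul_apply]
  have e1 : ‖Q r‖ ^ 2 = (Q r).re ^ 2 + (Q r).im ^ 2 := by
    rw [← Complex.normSq_eq_norm_sq, Complex.normSq_apply]; ring
  rw [e1]
  simp only [Complex.add_im, Complex.mul_im, Complex.sub_im, Complex.neg_im, Complex.mul_re,
    Complex.add_re, Complex.sub_re, Complex.neg_re, Complex.conj_re, Complex.conj_im,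
    Complex.ofReal_re, Complex.ofReal_im, Complex.I_re, Complex.I_im]
  rcases Nat.eq_zero_or_pos (d - 1) with h0 | h0
  · have hd2 : (d:ℝ) = 1 := by
      rw [h0] at hd1; push_cast at hd1; linarith
    rw [h0, hd2]
    simp only [pow_zero, Nat.cast_zero, zero_mul, zero_add, one_mul, sub_self, zero_div]
    ring
  · obtain ⟨k, hk⟩ := Nat.exists_eq_succ_of_ne_zero h0.ne'
    rw [hk] at hd1 ⊢
    have hd3 : (d:ℝ) = k + 2 := by push_cast at hd1; linarith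
    rw [hd3]
    simp only [Nat.succ_sub_one, Nat.succ_eq_add_one]
    push_cast
    field_simp
    ring

/-- Nonvanishing from the flux identity. -/
theorem flux_ne {d : ℕ} (hd : 2 ≤ d) {a w : ℝ} (ha : a < d / 4) {P : ℝ → ℝ} {Q Q1 : ℝ → ℂ}
    (hc : Continuous Q) (hc1 : Continuous Q1) (h : RadODE d a w P Q Q1 (Ioi 0)) (h0 : Q 0 ≠ 0) :
    ∀ r, 0 ≤ r → Q r ≠ 0 := by
  intro r0 hr0 hz
  rcases hr0.eq_or_lt with rfl | hpos
  · exact h0 hz
  set F : ℝ → ℝ := fun r => r ^ (d - 1) * ((Q1 r * conj (Q r)).im + r / 4 * ‖Q r‖ ^ 2) with hF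
  have hFc : Continuous F := by
    have h1 : Continuous fun r => (Q1 r * conj (Q r)).im :=
      continuous_im.comp (hc1.mul (continuous_conj.comp hc))
    simp only [hF]
    fun_prop
  have hda : 0 < (d:ℝ) / 4 - a := by linarith
  have hmono : MonotoneOn F (Icc 0 r0) := by
    refine monotoneOn_of_deriv_nonneg (convex_Icc _ _) hFc.continuousOn ?_ ?_
    · intro r hr
      rw [interior_Icc] at hr
      exact (hasDerivAt_fluxF (by omega) h hr.1).differentiableAt.differentiableWithinAt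
    · intro r hr
      rw [interior_Icc] at hr
      rw [(hasDerivAt_fluxF (by omega) h hr.1).deriv]
      have := hr.1
      positivity
  have hF0 : F 0 = 0 := by
    simp only [hF]; rw [zero_pow (by omega)]; simp
  have hFr : F r0 = 0 := by simp only [hF]; rw [hz]; simp
  have hconst : ∀ r ∈ Icc 0 r0, F r = 0 := by
    intro r hr
    have h1 := hmono ⟨le_rfl, hpos.le⟩ hr hr.1
    have h2 := hmono hr ⟨hpos.le, le_rfl⟩ hr.2
    linarith
  have hQ0 : ∀ r ∈ Ioo 0 r0, Q r = 0 := by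
    intro r hr
    have h1 : HasDerivAt F 0 r := by
      refine (hasDerivAt_const r (0:ℝ)).congr_of_eventuallyEq ?_
      filter_upwards [Ioo_mem_nhds hr.1 hr.2] with s hs
      exact hconst s ⟨hs.1.le, hs.2.le⟩
    have h2 := (hasDerivAt_fluxF (by omega) h hr.1).unique h1
    have h3 : 0 < ((d:ℝ) / 4 - a) * r ^ (d - 1) := mul_pos hda (pow_pos hr.1 _)
    have h4 : ‖Q r‖ ^ 2 = 0 := (mul_eq_zero.1 h2).resolve_left h3.ne'
    exact norm_eq_zero.1 (pow_eq_zero_iff (two_ne_zero) |>.1 h4)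
  apply h0
  have hcl : (0:ℝ) ∈ closure (Ioo 0 r0) := by
    rw [closure_Ioo hpos.ne]; exact ⟨le_rfl, hpos.le⟩
  have hclosed : IsClosed {r | Q r = 0} := isClosed_eq hc continuous_const
  exact closure_minimal hQ0 hclosed hcl

/-! ### The matched profile -/

section one

variable {d m : ℕ} {Rm Rp wm wp η0 c C r1 ε : ℝ} {U U1 : ℝ → ℝ → ℂ} {K : ℕ → ℝ → ℂ → ℂ}
  {p : ℝ × ℝ} {τ : ℝ} {u : ℂ} {Y Y1 : ℝ → ℂ} {θf : ℝ} {Qb Qb1 : ℝ → ℂ}

theorem FarSol.le_one (hθ : θf ≤ 1) (hr1 : 0 ≤ r1) {w : ℝ} {y k : ℂ}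
    (F : FarSol d m w r1 θf y k Qb Qb1) : ∀ r, r1 ≤ r → ‖Qb r‖ ≤ 1 := by
  intro r hr
  have haa : 0 ≤ aa m := by unfold aa; positivity
  refine (F.dec r hr).trans ?_
  have h1 : (1 + r) ^ (-(2 * aa m)) ≤ 1 :=
    Real.rpow_le_one_of_one_le_of_nonpos (by linarith) (by linarith)
  have h2 : 0 ≤ (1 + r) ^ (-(2 * aa m)) := Real.rpow_nonneg (by linarith) _
  calc θf * (1 + r) ^ (-(2 * aa m)) ≤ 1 * 1 := mul_le_mul hθ h1 h2 (by norm_num)
    _ = 1 := one_mul 1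

/-- Glueing with a far field. -/
theorem Matched.glueF (hd : 1 ≤ d) (M : Matched d m Rm Rp wm wp η0 c C r1 ε U U1 K p τ u Y Y1)
    (hRm : 0 < Rm) (hr1 : Rp ≤ r1) (hθ : θf ≤ 1)
    (F : FarSol d m p.2 r1 θf (Y r1) (K m p.2 (Y r1)) Qb Qb1) :
    (∀ r ∈ Icc τ r1, u * Qf d (2 * m) p r = Y r ∧ u * Qf1 d (2 * m) p r = Y1 r) ∧
    (∀ r, r1 ≤ r → u * Qf d (2 * m) p r = Qb r ∧ u * Qf1 d (2 * m) p r = Qb1 r) := by
  have hr10 : 0 ≤ r1 := (hRm.trans (M.hτ.1.trans M.hτ.2)).le.trans hr1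
  refine M.glue hd hRm hr1 ?_ (fun r hr => ?_) F.v0 ?_
  · rw [one_div_eq_aa]; exact F.ode
  · exact (pow_le_one₀ (norm_nonneg _) (F.le_one hθ hr10 r hr)).trans (by norm_num)
  · rw [F.v1, M.far]

theorem Matched.norm_q (hd : 1 ≤ d) (M : Matched d m Rm Rp wm wp η0 c C r1 ε U U1 K p τ u Y Y1)
    (hRm : 0 < Rm) (hr1 : Rp ≤ r1) (hθ : θf ≤ 1)
    (F : FarSol d m p.2 r1 θf (Y r1) (K m p.2 (Y r1)) Qb Qb1) :
    (∀ r ∈ Icc τ r1, ‖Qf d (2 * m) p r‖ = ‖Y r‖) ∧ (∀ r, r1 ≤ r → ‖Qf d (2 * m) p r‖ = ‖Qb r‖) := by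
  obtain ⟨h1, h2⟩ := M.glueF hd hRm hr1 hθ F
  refine ⟨fun r hr => ?_, fun r hr => ?_⟩
  · rw [← (h1 r hr).1, norm_mul, M.hu, one_mul]
  · rw [← (h2 r hr).1, norm_mul, M.hu, one_mul]

/-- The potential is at most `4`. -/
theorem Matched.pot_le (hd : 1 ≤ d) (M : Matched d m Rm Rp wm wp η0 c C r1 ε U U1 K p τ u Y Y1)
    (hRm : 0 < Rm) (hr1 : Rp ≤ r1) (hθ : θf ≤ 1)
    (F : FarSol d m p.2 r1 θf (Y r1) (K m p.2 (Y r1)) Qb Qb1)
    (hcore : ∀ r ∈ Icc 0 τ, ‖Qf d (2 * m) p r‖ ^ (2 * m) ≤ 4) :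
    ∀ r, ‖Qf d (2 * m) p r‖ ^ (2 * m) ≤ 4 := by
  have hr10 : 0 ≤ r1 := (hRm.trans (M.hτ.1.trans M.hτ.2)).le.trans hr1
  obtain ⟨h1, h2⟩ := M.norm_q hd hRm hr1 hθ F
  have key : ∀ r, 0 ≤ r → ‖Qf d (2 * m) p r‖ ^ (2 * m) ≤ 4 := by
    intro r hr
    rcases le_total r τ with h | h
    · exact hcore r ⟨hr, h⟩
    rcases le_total r r1 with h' | h'
    · rw [h1 r ⟨h, h'⟩]; exact (M.bd r ⟨h, h'⟩).trans (by norm_num)
    · rw [h2 r h']
      exact (pow_le_one₀ (norm_nonneg _) (F.le_one hθ hr10 r h')).trans (by norm_num)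
  intro r
  rcases le_total 0 r with h | h
  · exact key r h
  · rw [← Qf_neg]; exact key (-r) (by linarith)

end one

/-- The exact equation where the cap is inactive. -/
theorem radODE_exact {d m : ℕ} (hd : 1 ≤ d) {p : ℝ × ℝ}
    (h4 : ∀ r, ‖Qf d (2 * m) p r‖ ^ (2 * m) ≤ 4) :
    RadODE d (aa m) p.2 (fun r => ‖Qf d (2 * m) p r‖ ^ (2 * m)) (Qf d (2 * m) p)
      (Qf1 d (2 * m) p) (Ioi 0) := by
  have h := radODE_uQf hd (2 * m) p (u := 1) (by simp)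
  simp only [one_mul] at h
  rw [one_div_eq_aa] at h
  exact radODE_congr h fun r _ => min_eq_left (h4 r)

/-- The equation in the form of `UP.ode`. -/
theorem ode_of_radODE {d m : ℕ} {w : ℝ} {Q Q1 : ℝ → ℂ}
    (h : RadODE d (aa m) w (fun r => ‖Q r‖ ^ (2 * m)) Q Q1 (Ioi 0)) (hQ : deriv Q = Q1) :
    ∀ r : ℝ, 0 < r → deriv (deriv Q) r + ((((d : ℝ) - 1) / r : ℝ) + I * (r / 2 : ℝ)) * deriv Q r
      + ((w : ℂ) + I * (aa m : ℂ)) * Q r = W1 m (Q r) * Q r := by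
  intro r hr
  rw [hQ, (h.h2 r hr).deriv, W1_eq_norm_pow]
  ring

/-! ### Closeness to the linear equation beyond the matching radius -/

theorem lin_close (d : ℕ) {Rm B W : ℝ} (hRm : 0 < Rm) (hB : 0 ≤ B) (hW : 0 ≤ W) :
    ∃ K : ℝ, 0 ≤ K ∧ ∀ w, |w| ≤ W → ∀ s ∈ Icc Rm B, ∀ (Z Z1 X X1 e : ℝ → ℂ) (δ ε : ℝ),
      0 ≤ δ → 0 ≤ ε →
      (∀ r ∈ Icc s B, HasDerivWithinAt Z (Z1 r) (Icc s B) r) →
      (∀ r ∈ Icc s B, HasDerivWithinAt Z1
        (-((((d:ℝ) - 1) / r : ℝ) + I * (r / 2 : ℝ)) * Z1 r - (w:ℂ) * Z r) (Icc s B) r) →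
      (∀ r ∈ Icc s B, HasDerivWithinAt X (X1 r) (Icc s B) r) →
      (∀ r ∈ Icc s B, HasDerivWithinAt X1
        (-((((d:ℝ) - 1) / r : ℝ) + I * (r / 2 : ℝ)) * X1 r - (w:ℂ) * X r + e r) (Icc s B) r) →
      (∀ r ∈ Icc s B, ‖e r‖ ≤ ε) → ‖X s - Z s‖ ≤ δ → ‖X1 s - Z1 s‖ ≤ δ →
      ∀ r ∈ Icc s B, ‖X r - Z r‖ ≤ K * (δ + ε) ∧ ‖X1 r - Z1 r‖ ≤ K * (δ + ε) := by
  set K0 : ℝ := 1 + ((d + 1) / Rm + B / 2) + (W + |0|) + 0 with hK0
  have hK00 : 0 ≤ K0 := by rw [hK0]; positivity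
  refine ⟨(1 + B) * Real.exp ((K0 + 1) * B), by positivity, ?_⟩
  intro w hw s hs Z Z1 X X1 e δ ε hδ hε hZ hZ1 hX hX1 he h0 h1 r hr
  set T := B - s with hT
  have hs0 : 0 < s := hRm.trans_le hs.1
  have hT0 : 0 ≤ T := by have := hs.2; linarith
  have hTB : T ≤ B := by linarith
  have hm : ∀ t ∈ Icc (0:ℝ) T, t + s ∈ Icc s B := fun t ht => ⟨by linarith [ht.1], by
    linarith [ht.2]⟩
  have hlip : ∀ t ∈ Icc 0 T, LipschitzWith (Real.toNNReal K0)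
      (fun y : ℂ × ℂ => vf d 0 w (fun _ _ => 0) s (t + s) y) := by
    intro t ht
    refine LipschitzWith.of_dist_le_mul fun y z => ?_
    rw [Real.coe_toNNReal _ hK00, dist_eq_norm, dist_eq_norm]
    have := vf_dist_le (d := d) (a := 0) (w := w) (Φ := fun _ _ => 0) (K := 0) (R := s)
      (fun s => LipschitzWith.const 0) hRm
      (hs.1.trans (hm t ht).1) (hm t ht).2 hw y z
    simpa [hK0] using this
  have hdZ : ∀ t ∈ Icc 0 T, HasDerivWithinAt (fun t => (Z (t + s), Z1 (t + s)))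
      (vf d 0 w (fun _ _ => 0) s (t + s) (Z (t + s), Z1 (t + s))) (Icc 0 T) t := by
    intro t ht
    have h1 := (hZ (t + s) (hm t ht)).scomp t
      (((hasDerivAt_id t).add_const s).hasDerivWithinAt (s := Icc 0 T)) (fun x hx => hm x hx)
    have h2 := (hZ1 (t + s) (hm t ht)).scomp t
      (((hasDerivAt_id t).add_const s).hasDerivWithinAt (s := Icc 0 T)) (fun x hx => hm x hx)
    have h3 := h1.prodMk h2
    simp only [one_smul] at h3
    refine h3.congr_deriv ?_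
    simp [vf]
  have hdX : ∀ t ∈ Icc 0 T, HasDerivWithinAt (fun t => (X (t + s), X1 (t + s)))
      (X1 (t + s), -((((d:ℝ) - 1) / (t + s) : ℝ) + I * ((t + s) / 2 : ℝ)) * X1 (t + s)
        - (w:ℂ) * X (t + s) + e (t + s)) (Icc 0 T) t := by
    intro t ht
    have h1 := (hX (t + s) (hm t ht)).scomp t
      (((hasDerivAt_id t).add_const s).hasDerivWithinAt (s := Icc 0 T)) (fun x hx => hm x hx)
    have h2 := (hX1 (t + s) (hm t ht)).scomp t
      (((hasDerivAt_id t).add_const s).hasDerivWithinAt (s := Icc 0 T)) (fun x hx => hm x hx)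
    have h3 := h1.prodMk h2
    simp only [one_smul] at h3
    exact h3
  have key := dist_le_of_ode (F := fun t y => vf d 0 w (fun _ _ => 0) s (t + s) y) hlip hδ hε
    hdZ hdX (by
      rw [Prod.norm_def, max_le_iff]
      simp only [zero_add, Prod.mk_sub_mk]
      exact ⟨by rw [norm_sub_rev]; exact h0, by rw [norm_sub_rev]; exact h1⟩) (by
      intro t ht
      have e1 : ((X1 (t + s), -((((d:ℝ) - 1) / (t + s) : ℝ) + I * ((t + s) / 2 : ℝ)) * X1 (t + s)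
        - (w:ℂ) * X (t + s) + e (t + s)) : ℂ × ℂ) -
        vf d 0 w (fun _ _ => 0) s (t + s) (X (t + s), X1 (t + s)) = (0, e (t + s)) := by
        simp [vf]
      rw [e1, Prod.norm_def, max_le_iff]
      exact ⟨by simpa using hε, he _ (hm t ht)⟩) (r - s)
      ⟨by linarith [hr.1], by linarith [hr.2]⟩
  have hcoe : ((Real.toNNReal K0 : ℝ≥0) : ℝ) = K0 := Real.coe_toNNReal _ hK00
  rw [hcoe] at key
  have hbound : (δ + ε * T) * Real.exp ((K0 + 1) * T) ≤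
      (1 + B) * Real.exp ((K0 + 1) * B) * (δ + ε) := by
    have h2 : Real.exp ((K0 + 1) * T) ≤ Real.exp ((K0 + 1) * B) := by gcongr
    have h3 : δ + ε * T ≤ (1 + B) * (δ + ε) := by
      have h4 : ε * T ≤ ε * B := by gcongr
      have h5 : 0 ≤ B * δ := by positivity
      linarith
    calc _ ≤ ((1 + B) * (δ + ε)) * Real.exp ((K0 + 1) * B) :=
          mul_le_mul h3 h2 (Real.exp_pos _).le (by positivity)
      _ = _ := by ring
  have key2 := key.trans hbound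
  rw [Prod.norm_def, max_le_iff] at key2
  simp only [sub_add_cancel, Prod.mk_sub_mk] at key2
  exact ⟨by rw [norm_sub_rev]; exact key2.1, by rw [norm_sub_rev]; exact key2.2⟩

end Vale.Agent.P139.H505
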