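import Vale.Agent.P139.H505.Far
import Vale.Agent.P139.H644.Far
import Vale.Agent.P139.H844.UPb
import Vale.Agent.P139.H844.UPc

/-!
# P139 / H505 : from matched families to the fields of `UP`
-/

open Set Filter Topology Complex Metric
open scoped NNReal ComplexConjugate ContDiff
open Vale.Agent.P139.H460 Vale.Agent.P139.H499 Vale.Agent.P139.BU

namespace Vale.Agent.P139.H505

/-- Choice of a null sequence. -/
theorem exists_null_seq {P : ℕ → ℝ → Prop} (h : ∀ ε > 0, ∀ᶠ m in atTop, P m ε) :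
    ∃ ε : ℕ → ℝ, Tendsto ε atTop (𝓝 0) ∧ ∀ᶠ m in atTop, P m (ε m) := by
  classical
  have hpos : ∀ k : ℕ, (0:ℝ) < 1 / ((k:ℝ) + 1) := fun k => by positivity
  let kf : ℕ → ℕ := fun m => Nat.findGreatest (fun k => P m (1 / ((k:ℝ) + 1))) m
  have hkf : ∀ k0 : ℕ, ∀ᶠ m in atTop, k0 ≤ kf m ∧ P m (1 / ((kf m : ℝ) + 1)) := by
    intro k0
    filter_upwards [h _ (hpos k0), eventually_ge_atTop k0] with m hm hk
    exact ⟨Nat.le_findGreatest hk hm,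
      Nat.findGreatest_spec (P := fun k => P m (1 / ((k:ℝ) + 1))) hk hm⟩
  refine ⟨fun m => 1 / ((kf m : ℝ) + 1), ?_, (hkf 0).mono fun m hm => hm.2⟩
  have h1 : Tendsto kf atTop atTop :=
    tendsto_atTop.2 fun k0 => (hkf k0).mono fun m hm => hm.1
  exact tendsto_one_div_add_atTop_nhds_zero_nat.comp h1

/-- The matched families. -/
structure Fam (d : ℕ) (Rm Rp wm wp η0 c C r1 θz θf x0 M0 : ℝ) (U U1 : ℝ → ℝ → ℂ)
    (K : ℕ → ℝ → ℂ → ℂ) (ε : ℕ → ℝ) (m0 : ℕ) (p : ℕ → ℝ × ℝ) (τ : ℕ → ℝ) (u : ℕ → ℂ)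
    (Y Y1 Qb Qb1 : ℕ → ℝ → ℂ) : Prop where
  hd : 4 ≤ d
  hRm : 0 < Rm
  hRp : Rp < 4
  hwm : 0 < wm
  hwp : wp ≤ 1
  hη0 : 0 < η0
  hc : 0 < c
  hC : 0 < C
  hr1 : Rp + η0 < r1
  hθz0 : 0 ≤ θz
  hθz : θz < 1
  hfun : Funnel d Rm Rp wm wp η0 r1 θz
  hθf0 : 0 ≤ θf
  hθf : θf < 1
  hx0 : 0 < x0
  m0_two : 2 ≤ m0
  core4 : ∀ m, m0 ≤ m → ∀ r ∈ Icc 0 (τ m), ‖Qf d (2 * m) (p m) r‖ ^ (2 * m) ≤ 4
  mat : ∀ m, m0 ≤ m →
    Matched d m Rm Rp wm wp η0 c C r1 (ε m) U U1 K (p m) (τ m) (u m) (Y m) (Y1 m)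
  far : ∀ m, m0 ≤ m → FarSol d m (p m).2 r1 θf (Y m r1) (K m (p m).2 (Y m r1)) (Qb m) (Qb1 m)
  ff : ∀ m, m0 ≤ m → H644.FarField m x0 M0 (Qb m)

section

variable {d : ℕ} {Rm Rp wm wp η0 c C r1 θz θf x0 M0 : ℝ} {U U1 : ℝ → ℝ → ℂ}
  {K : ℕ → ℝ → ℂ → ℂ} {ε : ℕ → ℝ} {m0 : ℕ} {p : ℕ → ℝ × ℝ} {τ : ℕ → ℝ} {u : ℕ → ℂ}
  {Y Y1 Qb Qb1 : ℕ → ℝ → ℂ}

theorem Fam.hd1 (h : Fam d Rm Rp wm wp η0 c C r1 θz θf x0 M0 U U1 K ε m0 p τ u Y Y1 Qb Qb1) :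
    1 ≤ d := by have := h.hd; omega

theorem Fam.hr1' (h : Fam d Rm Rp wm wp η0 c C r1 θz θf x0 M0 U U1 K ε m0 p τ u Y Y1 Qb Qb1) :
    Rp ≤ r1 := by have := h.hr1; have := h.hη0; linarith

theorem Fam.glue (h : Fam d Rm Rp wm wp η0 c C r1 θz θf x0 M0 U U1 K ε m0 p τ u Y Y1 Qb Qb1)
    {m : ℕ} (hm : m0 ≤ m) :
    (∀ r ∈ Icc (τ m) r1, u m * Qf d (2 * m) (p m) r = Y m r ∧
      u m * Qf1 d (2 * m) (p m) r = Y1 m r) ∧
    (∀ r, r1 ≤ r → u m * Qf d (2 * m) (p m) r = Qb m r ∧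
      u m * Qf1 d (2 * m) (p m) r = Qb1 m r) :=
  (h.mat m hm).glueF h.hd1 h.hRm h.hr1' h.hθf.le (h.far m hm)

theorem Fam.norm_q (h : Fam d Rm Rp wm wp η0 c C r1 θz θf x0 M0 U U1 K ε m0 p τ u Y Y1 Qb Qb1)
    {m : ℕ} (hm : m0 ≤ m) :
    (∀ r ∈ Icc (τ m) r1, ‖Qf d (2 * m) (p m) r‖ = ‖Y m r‖) ∧
      (∀ r, r1 ≤ r → ‖Qf d (2 * m) (p m) r‖ = ‖Qb m r‖) :=
  (h.mat m hm).norm_q h.hd1 h.hRm h.hr1' h.hθf.le (h.far m hm)

theorem Fam.pot (h : Fam d Rm Rp wm wp η0 c C r1 θz θf x0 M0 U U1 K ε m0 p τ u Y Y1 Qb Qb1)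
    {m : ℕ} (hm : m0 ≤ m) : ∀ r, ‖Qf d (2 * m) (p m) r‖ ^ (2 * m) ≤ 4 :=
  (h.mat m hm).pot_le h.hd1 h.hRm h.hr1' h.hθf.le (h.far m hm) (h.core4 m hm)

theorem Fam.radODE (h : Fam d Rm Rp wm wp η0 c C r1 θz θf x0 M0 U U1 K ε m0 p τ u Y Y1 Qb Qb1)
    {m : ℕ} (hm : m0 ≤ m) :
    RadODE d (aa m) (p m).2 (fun r => ‖Qf d (2 * m) (p m) r‖ ^ (2 * m)) (Qf d (2 * m) (p m))
      (Qf1 d (2 * m) (p m)) (Ioi 0) := radODE_exact h.hd1 (h.pot hm)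

theorem Fam.wpos (h : Fam d Rm Rp wm wp η0 c C r1 θz θf x0 M0 U U1 K ε m0 p τ u Y Y1 Qb Qb1)
    {m : ℕ} (hm : m0 ≤ m) : 0 < (p m).2 := h.hwm.trans_le (h.mat m hm).hp.2.1

theorem Fam.q0pos (h : Fam d Rm Rp wm wp η0 c C r1 θz θf x0 M0 U U1 K ε m0 p τ u Y Y1 Qb Qb1)
    {m : ℕ} (hm : m0 ≤ m) : 0 < q0f (2 * m) (p m) := q0f_pos (h.mat m hm).hp.1.1 (h.wpos hm)

theorem Fam.τpos (h : Fam d Rm Rp wm wp η0 c C r1 θz θf x0 M0 U U1 K ε m0 p τ u Y Y1 Qb Qb1)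
    {m : ℕ} (hm : m0 ≤ m) : 0 < τ m := h.hRm.trans (h.mat m hm).hτ.1

theorem Fam.ode (h : Fam d Rm Rp wm wp η0 c C r1 θz θf x0 M0 U U1 K ε m0 p τ u Y Y1 Qb Qb1) :
    ∀ m, m0 ≤ m → ∀ r : ℝ, 0 < r →
    deriv (deriv (Qf d (2 * m) (p m))) r + ((((d : ℝ) - 1) / r : ℝ) + I * (r / 2 : ℝ)) *
      deriv (Qf d (2 * m) (p m)) r + (((p m).2 : ℂ) + I * (aa m : ℂ)) * Qf d (2 * m) (p m) r
      = W1 m (Qf d (2 * m) (p m) r) * Qf d (2 * m) (p m) r :=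
  fun _ hm => ode_of_radODE (h.radODE hm) (deriv_Qf _ _ _)

theorem Fam.ne (h : Fam d Rm Rp wm wp η0 c C r1 θz θf x0 M0 U U1 K ε m0 p τ u Y Y1 Qb Qb1) :
    ∀ m, m0 ≤ m → ∀ r, Qf d (2 * m) (p m) r ≠ 0 := by
  intro m hm
  have hd := h.hd
  have hm2 : 2 ≤ m := h.m0_two.trans hm
  have haa : aa m < (d:ℝ) / 4 := by
    have h1 : (2:ℝ) ≤ m := by exact_mod_cast hm2
    have h2 : (4:ℝ) ≤ d := by exact_mod_cast hd
    have h3 : aa m ≤ 1 / 4 := by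
      unfold aa
      apply one_div_le_one_div_of_le <;> linarith
    linarith
  have h0 : Qf d (2 * m) (p m) 0 ≠ 0 := by
    rw [Qf_zero]; exact_mod_cast (h.q0pos hm).ne'
  have key := flux_ne (by omega) haa (continuous_Qf _ _ _) (continuous_Qf1 _ _ _) (h.radODE hm) h0
  intro r
  rcases le_total 0 r with hr | hr
  · exact key r hr
  · rw [← Qf_neg]; exact key (-r) (by linarith)

/-- [UP.layer] -/
theorem Fam.layer (h : Fam d Rm Rp wm wp η0 c C r1 θz θf x0 M0 U U1 K ε m0 p τ u Y Y1 Qb Qb1) :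
    ∃ η0 > 0, ∃ c > 0, ∃ m1 : ℕ, ∀ m, m1 ≤ m → ∀ r ∈ Ioc (τ m) (τ m + η0),
      ‖Qf d (2 * m) (p m) r‖ ^ (2 * m) ≤ ((p m).2 / 2) * Real.exp (-(c * m * (r - τ m) ^ 2)) ∧
      (conj (Qf d (2 * m) (p m) r) * deriv (Qf d (2 * m) (p m)) r).re < 0 := by
  refine ⟨η0, h.hη0, c, h.hc, m0, fun m hm r hr => ?_⟩
  have M := h.mat m hm
  have hr' : r ∈ Icc (τ m) r1 := ⟨hr.1.le, by linarith [hr.2, M.hτ.2, h.hr1]⟩
  have hw := h.wpos hm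
  have hc := h.hc
  constructor
  · rw [(h.norm_q hm).1 r hr']
    refine (M.layer r ⟨hr.1.le, hr.2⟩).trans ?_
    have : Real.exp (-(c * ((2 * m : ℕ) : ℝ) * (r - τ m) ^ 2)) ≤
        Real.exp (-(c * m * (r - τ m) ^ 2)) := by
      apply Real.exp_le_exp.2
      have h1 : 0 ≤ c * m * (r - τ m) ^ 2 := by positivity
      push_cast
      linarith
    exact mul_le_mul_of_nonneg_left this (by positivity)
  · obtain ⟨e1, e2⟩ := (h.glue hm).1 r hr'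
    have h1 := M.mono r hr
    rw [← e1, ← e2] at h1
    rw [deriv_Qf]
    have e : conj (u m * Qf d (2 * m) (p m) r) * (u m * Qf1 d (2 * m) (p m) r) =
        conj (Qf d (2 * m) (p m) r) * Qf1 d (2 * m) (p m) r := by
      rw [map_mul]
      have : conj (u m) * u m = 1 := by
        rw [mul_comm, mul_conj, normSq_eq_norm_sq, M.hu]; simp
      calc _ = (conj (u m) * u m) * (conj (Qf d (2 * m) (p m) r) * Qf1 d (2 * m) (p m) r) := by ring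
        _ = _ := by rw [this, one_mul]
    rwa [e] at h1

theorem div_sqrt_two_le {C : ℝ} (hC : 0 ≤ C) {m : ℕ} (hm : 1 ≤ m) :
    C / Real.sqrt ((2 * m : ℕ) : ℝ) ≤ C / Real.sqrt m := by
  have h1 : (0:ℝ) < m := by exact_mod_cast hm
  have h2 : Real.sqrt m ≤ Real.sqrt ((2 * m : ℕ) : ℝ) :=
    Real.sqrt_le_sqrt (by push_cast; linarith)
  exact div_le_div_of_nonneg_left hC (Real.sqrt_pos.2 h1) h2

/-- Closeness to a given linear solution on `[τ, B]`, `B ≥ r1`. -/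
theorem Fam.close_aux
    (h : Fam d Rm Rp wm wp η0 c C r1 θz θf x0 M0 U U1 K ε m0 p τ u Y Y1 Qb Qb1) {B : ℝ}
    (hB : r1 ≤ B) : ∃ C' : ℝ, 0 ≤ C' ∧ ∀ m, m0 ≤ m → ∀ Z Z1 : ℝ → ℂ, Continuous Z → Continuous Z1 →
      LinInf d (p m).2 Z Z1 (Icc (τ m) B) → Z (τ m) = 1 → Z1 (τ m) = 0 →
      ∀ r ∈ Icc (τ m) B, ‖u m * Qf d (2 * m) (p m) r - Z r‖ ≤ C' / Real.sqrt m ∧
        ‖u m * Qf1 d (2 * m) (p m) r - Z1 r‖ ≤ C' / Real.sqrt m := by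
  have hRpr1 := h.hr1'
  have hη0 := h.hη0
  have hC := h.hC
  have hθf0 := h.hθf0
  have hθf1 : 0 < 1 - θf := by have := h.hθf; linarith
  by_cases hRR : Rm < Rp
  swap
  · refine ⟨0, le_rfl, fun m hm => ?_⟩
    have := (h.mat m hm).hτ
    exact absurd (this.1.trans this.2) hRR
  have hRm := h.hRm
  have hr10 : 0 < r1 := by linarith
  have hB0 : 0 ≤ B := by linarith
  obtain ⟨K1, hK1, hlin⟩ := lin_close d (Rm := Rm) (B := B) (W := 1) hRm hB0 zero_le_one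
  refine ⟨C + K1 * (C + (1 + 1 / (1 - θf))), by positivity, ?_⟩
  intro m hm Z Z1 hZc hZ1c hZ hZ0 hZ10 r hr
  have M := h.mat m hm
  have hm1 : 1 ≤ m := by have := h.m0_two; omega
  have hmR : (1:ℝ) ≤ m := by exact_mod_cast hm1
  have hsq : 0 < Real.sqrt m := Real.sqrt_pos.2 (by linarith)
  have hτr : τ m ≤ r1 := M.hτ.2.le.trans hRpr1
  have hw0 := h.wpos hm
  have hw1 : (p m).2 ≤ 1 := M.hp.2.2.trans h.hwp
  have hnear : ∀ s ∈ Icc (τ m) r1, ‖u m * Qf d (2 * m) (p m) s - Z s‖ ≤ C / Real.sqrt m ∧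
        ‖u m * Qf1 d (2 * m) (p m) s - Z1 s‖ ≤ C / Real.sqrt m := by
    intro s hs
    have h1 : RadODE d 0 (p m).2 (fun _ => 0) Z Z1 (Ioo (τ m) r1) := by
      refine ⟨fun t ht => hZ.h1 t ⟨ht.1.le, ht.2.le.trans hB⟩, fun t ht => ?_⟩
      refine (hZ.h2 t ⟨ht.1.le, ht.2.le.trans hB⟩).congr_deriv ?_
      simp
    have h2 := M.close Z Z1 hZc.continuousOn hZ1c.continuousOn h1 hZ0 hZ10 s hs
    obtain ⟨e1, e2⟩ := (h.glue hm).1 s hs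
    rw [e1, e2]
    exact ⟨h2.1.trans (div_sqrt_two_le hC.le hm1), h2.2.trans (div_sqrt_two_le hC.le hm1)⟩
  have hCle : C / Real.sqrt m ≤ (C + K1 * (C + (1 + 1 / (1 - θf)))) / Real.sqrt m := by
    gcongr
    have : 0 ≤ K1 * (C + (1 + 1 / (1 - θf))) := by positivity
    linarith
  rcases le_total r r1 with hrr | hrr
  · obtain ⟨e1, e2⟩ := hnear r ⟨hr.1, hrr⟩
    exact ⟨e1.trans hCle, e2.trans hCle⟩
  -- beyond `r1`
  have hrad := radODE_smul (u m) (h.radODE hm)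
  have hr1m : r1 ∈ Icc Rm B := ⟨by linarith, hB⟩
  obtain ⟨n1, n2⟩ := hnear r1 ⟨hτr, le_rfl⟩
  set e : ℝ → ℂ := fun r => (-(I * aa m) + ((‖Qf d (2 * m) (p m) r‖ ^ (2 * m) : ℝ) : ℂ)) *
    (u m * Qf d (2 * m) (p m) r) with he
  have haa0 : 0 ≤ aa m := by unfold aa; positivity
  have hbnd : ∀ s ∈ Icc r1 B, ‖e s‖ ≤ (1 + 1 / (1 - θf)) / Real.sqrt m := by
    intro s hs
    have hs0 : 0 < s := hr10.trans_le hs.1
    have h1 : ‖Qf d (2 * m) (p m) s‖ ≤ θf := by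
      rw [(h.norm_q hm).2 s hs.1]
      refine ((h.far m hm).dec s hs.1).trans ?_
      have h2 : (1 + s) ^ (-(2 * aa m)) ≤ 1 :=
        Real.rpow_le_one_of_one_le_of_nonpos (by linarith) (by linarith)
      exact mul_le_of_le_one_right hθf0 h2
    have h2 : ‖Qf d (2 * m) (p m) s‖ ^ (2 * m) ≤ 1 / (1 - θf) / Real.sqrt m := by
      have h3 : ‖Qf d (2 * m) (p m) s‖ ^ (2 * m) ≤ θf ^ (2 * m) :=
        pow_le_pow_left₀ (norm_nonneg _) h1 _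
      have h4 := odd_mul_pow_le hθf0 h.hθf m
      have h5 : Real.sqrt m ≤ 2 * m + 1 := by
        have h6 : Real.sqrt m ≤ m := by
          rw [Real.sqrt_le_left (by linarith)]; nlinarith
        linarith
      rw [le_div_iff₀ hsq]
      calc _ ≤ θf ^ (2 * m) * (2 * m + 1) := by gcongr
        _ ≤ _ := by rw [mul_comm]; exact h4
    have h3 : aa m ≤ 1 / Real.sqrt m := by
      unfold aa
      apply one_div_le_one_div_of_le hsq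
      have h6 : Real.sqrt m ≤ m := by
        rw [Real.sqrt_le_left (by linarith)]; nlinarith
      linarith
    simp only [he]
    rw [norm_mul, norm_mul, M.hu, one_mul]
    have h4 : ‖-(I * (aa m : ℂ)) + ((‖Qf d (2 * m) (p m) s‖ ^ (2 * m) : ℝ) : ℂ)‖ ≤
        aa m + ‖Qf d (2 * m) (p m) s‖ ^ (2 * m) := by
      refine (norm_add_le _ _).trans ?_
      rw [norm_neg, norm_mul, norm_I, one_mul, norm_real, norm_real, Real.norm_eq_abs,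
        Real.norm_eq_abs, abs_of_nonneg haa0, abs_of_nonneg (by positivity)]
    have h5 : ‖Qf d (2 * m) (p m) s‖ ≤ 1 := h1.trans h.hθf.le
    calc _ ≤ (aa m + ‖Qf d (2 * m) (p m) s‖ ^ (2 * m)) * 1 :=
          mul_le_mul h4 h5 (norm_nonneg _) (by positivity)
      _ ≤ 1 / Real.sqrt m + 1 / (1 - θf) / Real.sqrt m := by linarith
      _ = _ := by ring
  have key := hlin (p m).2 (by rw [abs_of_pos hw0]; exact hw1) r1 hr1m Z Z1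
    (fun r => u m * Qf d (2 * m) (p m) r) (fun r => u m * Qf1 d (2 * m) (p m) r) e
    (C / Real.sqrt m) ((1 + 1 / (1 - θf)) / Real.sqrt m) (by positivity) (by positivity)
    (fun s hs => (hZ.h1 s ⟨hτr.trans hs.1, hs.2⟩).hasDerivWithinAt)
    (fun s hs => (hZ.h2 s ⟨hτr.trans hs.1, hs.2⟩).hasDerivWithinAt)
    (fun s hs => (hrad.h1 s (hr10.trans_le hs.1)).hasDerivWithinAt)
    (fun s hs => by
      refine ((hrad.h2 s (hr10.trans_le hs.1)).congr_deriv ?_).hasDerivWithinAt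
      simp only [he]
      ring) hbnd n1 n2 r ⟨hrr, hr.2⟩
  have hfin : K1 * (C / Real.sqrt m + (1 + 1 / (1 - θf)) / Real.sqrt m) ≤
      (C + K1 * (C + (1 + 1 / (1 - θf)))) / Real.sqrt m := by
    have : K1 * (C / Real.sqrt m + (1 + 1 / (1 - θf)) / Real.sqrt m) =
      (K1 * (C + (1 + 1 / (1 - θf)))) / Real.sqrt m := by ring
    rw [this]
    gcongr
    linarith
  exact ⟨key.1.trans hfin, key.2.trans hfin⟩

end

end Vale.Agent.P139.H505
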