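import Vale.Agent.P139.H505.Fam2
import Vale.Agent.P139.H460.Far3
import Vale.Agent.P139.H307.Trans3
import Vale.Agent.P139.H844.Core6

/-!
# P139 / H505 : existence of the matched families
-/

open Set Filter Topology Complex Metric
open scoped NNReal ComplexConjugate ContDiff
open Vale.Agent.P139.H460 Vale.Agent.P139.H499 Vale.Agent.P139.BU Vale.Agent.P139.KU

namespace Vale.Agent.P139.H505

/-- The far solution in the form used by `Fam`. -/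
theorem farSol_of {d m : ℕ} {r1 θ θf x w : ℝ} {y : ℂ} {Qb Qb1 : ℝ → ℂ} (hr1 : 1 ≤ r1)
    (hx : x < r1 ^ 2 / 4) (F : H460.FarSol d m r1 1 θ x w y Qb Qb1)
    (hout : ∀ r : ℝ, 1 ≤ r → θ * (r ^ 2 / 4) ^ (-(aa m)) ≤ θf * (1 + r) ^ (-(2 * aa m))) :
    FarSol d m w r1 θf y (Kfar d r1 m w y) Qb Qb1 ∧
      H644.FarField m x (Real.exp (Real.pi * 1)) Qb := by
  have ham : am m = aa m := one_div_eq_aa m
  have hxr : ∀ r, r1 ≤ r → 0 < r ∧ x < r ^ 2 / 4 := by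
    intro r hr
    refine ⟨by linarith, hx.trans_le ?_⟩
    have : r1 ^ 2 ≤ r ^ 2 := pow_le_pow_left₀ (by linarith) hr 2
    linarith
  refine ⟨⟨?_, F.val, F.der, fun r hr => ?_⟩, ?_⟩
  · have h := F.ode
    rw [ham] at h
    exact radODE_mono h fun r hr => hxr r hr
  · have h := F.bd r (hxr r hr).1 (hxr r hr).2
    rw [ham] at h
    exact h.trans (hout r (hr1.trans hr))
  · have h := F.holo
    rw [ham] at h
    exact h

theorem exists_fam {d : ℕ} (hd : 6 ≤ d) {Rm Rp wm wp : ℝ} (hRm : 0 < Rm) (hR : Rm < Rp)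
    (hRp : Rp < 4) (hwm : 0 < wm) (hw : wm ≤ wp) (hwp : wp ≤ 1) (hS : SignData d Rm Rp wm wp)
    (hfun : ∀ η0 > 0, ∃ θz ∈ Ico (0:ℝ) 1, ∀ r1, Funnel d Rm Rp wm wp η0 r1 θz) :
    ∃ (η0 c C r1 θz θf x0 M0 : ℝ) (ε : ℕ → ℝ) (m0 : ℕ) (p : ℕ → ℝ × ℝ) (τ : ℕ → ℝ) (u : ℕ → ℂ)
      (Y Y1 Qb Qb1 : ℕ → ℝ → ℂ), Tendsto ε atTop (𝓝 0) ∧
      Fam d Rm Rp wm wp η0 c C r1 θz θf x0 M0 (Qinf d) (Qinf' d) (Kfar d r1) ε m0 p τ u
        Y Y1 Qb Qb1 := by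
  obtain ⟨η0, hη0, c, hc, hmat⟩ := matching (d := d) (by omega) (H844.coreStatement d (by omega))
    (H307.transitStatement (by omega)) hRm hR hRp hwm hw hwp
  obtain ⟨θz, hθz, hfun⟩ := hfun η0 hη0
  have hz1 := hθz.1
  have hz2 := hθz.2
  obtain ⟨θe, hθe⟩ : ∃ θe, θe = (3 * θz + 1) / 4 := ⟨_, rfl⟩
  obtain ⟨θ0, hθ0⟩ : ∃ θ0, θ0 = (2 * θz + 2) / 4 := ⟨_, rfl⟩
  obtain ⟨θ, hθ⟩ : ∃ θ, θ = (θz + 3) / 4 := ⟨_, rfl⟩
  obtain ⟨θf, hθf⟩ : ∃ θf, θf = (θ + 1) / 2 := ⟨_, rfl⟩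
  obtain ⟨r1, hr1, x, hx1, hxr, hfp⟩ := exists_farPar (d := d) hd (W := 1) (θe := θe) (θ0 := θ0)
    (θ := θ) zero_le_one (by linarith) (by linarith) (by linarith) (by linarith)
    (max (Rp + η0) 1)
  have hr1' : Rp + η0 < r1 := (le_max_left _ _).trans_lt hr1
  have hr11 : 1 ≤ r1 := ((le_max_right _ _).trans_lt hr1).le
  have hwW : ∀ w ∈ Icc wm wp, |w| ≤ 1 := fun w hw' => by
    rw [abs_of_pos (hwm.trans_le hw'.1)]; exact hw'.2.trans hwp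
  obtain ⟨C, hC, hev⟩ := hmat r1 hr1' θz hθz θe (by linarith) (hfun r1) _ _ _
    (hfp.linExt hRm hwW hS) _ (hfp.farMap hwW)
  obtain ⟨ε, hε, hev⟩ := exists_null_seq hev
  obtain ⟨cZ, hcZ, CZ, hCZ, hex⟩ := H844.linInf_bounds (d := d) (by omega) (R1 := Rm) (R2 := Rp)
    (b := r1) hRm (by linarith)
  have hfs := hfp.farSol (c0 := cZ / 2) (by positivity)
  have hout := H644.out_far (θ := θ) (θ' := θf) (by linarith) (by linarith)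
  obtain ⟨Cc, hCc, Nc, hcore⟩ := H844.coreStatement d (by omega) wm wp hwm hw hwp
  have hsm : ∀ᶠ m : ℕ in atTop, C / Real.sqrt ((2 * m : ℕ) : ℝ) < min (cZ / 2) (θe - θz) :=
    (tendsto_C_div_sqrt C).eventually (gt_mem_nhds (lt_min (by positivity) (by linarith)))
  obtain ⟨m0, hm0⟩ := eventually_atTop.1 (hev.and (hfs.and (hout.and (hsm.and
    ((eventually_ge_atTop Nc).and ((eventually_ge_atTop 2).and
      (eventually_ge_atTop (Nat.ceil Cc))))))))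
  have H : ∀ m, m0 ≤ m → ∃ (p : ℝ × ℝ) (τ : ℝ) (u : ℂ) (Y Y1 Qb Qb1 : ℝ → ℂ),
      (∀ r ∈ Icc 0 τ, ‖Qf d (2 * m) p r‖ ^ (2 * m) ≤ 4) ∧
      Matched d m Rm Rp wm wp η0 c C r1 (ε m) (Qinf d) (Qinf' d) (Kfar d r1) p τ u Y Y1 ∧
      FarSol d m p.2 r1 θf (Y r1) (Kfar d r1 m p.2 (Y r1)) Qb Qb1 ∧
      H644.FarField m x (Real.exp (Real.pi * 1)) Qb := by
    intro m hm
    obtain ⟨⟨p, τ, u, Y, Y1, M⟩, h2, h3, h4, h5, h6, h7⟩ := hm0 m hm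
    have hw0 : 0 < p.2 := hwm.trans_le M.hp.2.1
    have hw1 : p.2 ≤ 1 := M.hp.2.2.trans hwp
    have hτ0 : 0 < τ := hRm.trans M.hτ.1
    obtain ⟨Z, Z1, cZc, cZ1, hZ, hZ0, hZ10, hZb⟩ := hex τ p.2 M.hτ.1.le M.hτ.2.le hw0.le hw1
    have hτr : τ ≤ r1 := by linarith [M.hτ.2]
    have hrad : RadODE d 0 p.2 (fun _ => 0) Z Z1 (Ioo τ r1) := by
      refine ⟨fun t ht => hZ.h1 t ⟨ht.1.le, ht.2.le⟩, fun t ht => ?_⟩
      refine (hZ.h2 t ⟨ht.1.le, ht.2.le⟩).congr_deriv ?_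
      simp
    have hcl := (M.close Z Z1 cZc.continuousOn cZ1.continuousOn hrad hZ0 hZ10 r1 ⟨hτr, le_rfl⟩).1
    have hZr := hfun r1 p.2 M.hp.2 τ ⟨M.hτ.1.le, M.hτ.2.le⟩ Z Z1 cZc.continuousOn
      cZ1.continuousOn hrad hZ0 hZ10 r1 ⟨by linarith [M.hτ.2], le_rfl⟩
    have hZl := (hZb r1 ⟨hτr, le_rfl⟩).1
    have h41 := h4.trans_le (min_le_left _ _)
    have h42 := h4.trans_le (min_le_right _ _)
    have hYu : ‖Y r1‖ ≤ θe := by
      calc ‖Y r1‖ = ‖Z r1 + (Y r1 - Z r1)‖ := by congr 1; ring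
        _ ≤ ‖Z r1‖ + ‖Y r1 - Z r1‖ := norm_add_le _ _
        _ ≤ θe := by linarith
    have hYl : cZ / 2 ≤ ‖Y r1‖ := by
      have h8 : ‖Z r1‖ ≤ ‖Y r1‖ + ‖Y r1 - Z r1‖ := by
        calc ‖Z r1‖ = ‖Y r1 - (Y r1 - Z r1)‖ := by congr 1; ring
          _ ≤ _ := norm_sub_le _ _
      linarith
    obtain ⟨Qb, Qb1, F⟩ := h2 p.2 (hwW p.2 M.hp.2) (Y r1) hYl hYu
    obtain ⟨F1, F2⟩ := farSol_of hr11 hxr F h3
    refine ⟨p, τ, u, Y, Y1, Qb, Qb1, fun r hr => ?_, M, F1, F2⟩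
    have hn : Nc ≤ 2 * m := by omega
    have h9 := (hcore (2 * m) hn p.2 M.hp.2 (q0f (2 * m) p) (q0f_pos M.hp.1.1 hw0) (τ + 1) τ
      (by linarith [M.hτ.2]) (by linarith) (Qf d (2 * m) p) (Qf1 d (2 * m) p)
      (regSol_Qf (by omega) _ _ _) M.first).1 r hr
    refine h9.trans ?_
    have h10 : Cc ≤ m := (Nat.le_ceil Cc).trans (by exact_mod_cast h7)
    have hmR : (2:ℝ) ≤ m := by exact_mod_cast h6
    have h11 : Cc / ((2 * m : ℕ) : ℝ) ≤ 1 := by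
      rw [div_le_one (by push_cast; linarith)]; push_cast; linarith
    linarith
  choose! p τ u Y Y1 Qb Qb1 hH using H
  refine ⟨η0, c, C, r1, θz, θf, x, Real.exp (Real.pi * 1), ε, max m0 2, p, τ, u, Y, Y1, Qb, Qb1,
    hε, ?_⟩
  have hmm : ∀ m, max m0 2 ≤ m → m0 ≤ m := fun m hm => (le_max_left _ _).trans hm
  exact {
    hd := by omega
    hRm := hRm
    hRp := hRp
    hwm := hwm
    hwp := hwp
    hη0 := hη0
    hc := hc
    hC := hC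
    hr1 := hr1'
    hθz0 := hz1
    hθz := hz2
    hfun := hfun r1
    hθf0 := by linarith
    hθf := by linarith
    hx0 := by linarith
    m0_two := le_max_right _ _
    core4 := fun m hm => (hH m (hmm m hm)).1
    mat := fun m hm => (hH m (hmm m hm)).2.1
    far := fun m hm => (hH m (hmm m hm)).2.2.1
    ff := fun m hm => (hH m (hmm m hm)).2.2.2 }

end Vale.Agent.P139.H505
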