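import Vale.Agent.P139.H505.Match2

/-!
# P139 / H505 : [P7.glue] the matched solution is the capped regular solution
-/

open Set Filter Topology Complex Metric
open scoped NNReal
open Vale.Agent.P139.H460 Vale.Agent.P139.H499

namespace Vale.Agent.P139.H505

theorem radODE_congr {d : ℕ} {a w : ℝ} {P P' : ℝ → ℝ} {Q Q1 : ℝ → ℂ} {s : Set ℝ}
    (h : RadODE d a w P Q Q1 s) (hP : ∀ r ∈ s, P r = P' r) : RadODE d a w P' Q Q1 s := by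
  refine ⟨h.h1, fun r hr => ?_⟩
  have := h.h2 r hr
  rwa [hP r hr] at this

theorem radODE_mono {d : ℕ} {a w : ℝ} {P : ℝ → ℝ} {Q Q1 : ℝ → ℂ} {s t : Set ℝ}
    (h : RadODE d a w P Q Q1 s) (hst : t ⊆ s) : RadODE d a w P Q Q1 t :=
  ⟨fun r hr => h.h1 r (hst hr), fun r hr => h.h2 r (hst hr)⟩

theorem radODE_smul {d : ℕ} {a w : ℝ} {P : ℝ → ℝ} {Q Q1 : ℝ → ℂ} {s : Set ℝ} (u : ℂ)
    (h : RadODE d a w P Q Q1 s) :
    RadODE d a w P (fun r => u * Q r) (fun r => u * Q1 r) s := by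
  refine ⟨fun r hr => (h.h1 r hr).const_mul u, fun r hr => ?_⟩
  refine ((h.h2 r hr).const_mul u).congr_deriv ?_
  ring

/-- Uniqueness for the capped equation, with data at `R > 0`. -/
theorem cap_unique {d n : ℕ} {a w R b : ℝ} (hR : 0 < R) {Y Y1 Z Z1 : ℝ → ℂ}
    (cY : ContinuousOn Y (Icc R b)) (cY1 : ContinuousOn Y1 (Icc R b))
    (cZ : ContinuousOn Z (Icc R b)) (cZ1 : ContinuousOn Z1 (Icc R b))
    (hY : RadODE d a w (fun r => min (‖Y r‖ ^ n) 4) Y Y1 (Ioo R b))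
    (hZ : RadODE d a w (fun r => min (‖Z r‖ ^ n) 4) Z Z1 (Ioo R b))
    (h0 : Y R = Z R) (h1 : Y1 R = Z1 R) : ∀ r ∈ Icc R b, Y r = Z r ∧ Y1 r = Z1 r := by
  have hc : Continuous (Function.uncurry fun (_ : ℝ) => phiN n 4) :=
    (continuous_phiN n).comp (f := fun p : ℝ × ℂ => ((4:ℝ), p.2)) (by fun_prop)
  have s1 : Sol d a w (fun _ => phiN n 4) R b (Z R) (Z1 R) Y Y1 :=
    Sol.of_Ioo hc hR cY cY1 hY.h1 (fun r hr => hY.h2 r hr) h0 h1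
  have s2 : Sol d a w (fun _ => phiN n 4) R b (Z R) (Z1 R) Z Z1 :=
    Sol.of_Ioo hc hR cZ cZ1 hZ.h1 (fun r hr => hZ.h2 r hr) rfl rfl
  exact Sol.unique (fun _ => phiN_lip (by norm_num) le_rfl) hR s1 s2

/-- Capped equation for `u * Qf`. -/
theorem radODE_uQf {d : ℕ} (hd : 1 ≤ d) (n : ℕ) (p : ℝ × ℝ) {u : ℂ} (hu : ‖u‖ = 1) :
    RadODE d (1 / n) p.2 (fun r => min (‖u * Qf d n p r‖ ^ n) 4) (fun r => u * Qf d n p r)
      (fun r => u * Qf1 d n p r) (Ioi 0) := by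
  have h : RadODE d (1 / n) p.2 (fun r => min (‖Qf d n p r‖ ^ n) 4) (Qf d n p) (Qf1 d n p)
      (Ioi 0) := by
    refine ⟨fun r hr => ?_, fun r hr => ?_⟩
    · exact ((regSol_Qf hd n p (r + 1)).ode.h1 r ⟨hr, by linarith⟩)
    · exact ((regSol_Qf hd n p (r + 1)).ode.h2 r ⟨hr, by linarith⟩)
  refine radODE_congr (radODE_smul u h) fun r _ => ?_
  rw [norm_mul, hu, one_mul]

theorem continuous_Qf1 (d n : ℕ) (p : ℝ × ℝ) : Continuous (Qf1 d n p) :=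
  (continuous_cQ1 d n).comp (f := fun r : ℝ => ((p.2, q0f n p, r) : ℝ × ℝ × ℝ)) (by fun_prop)

/-- **[P7.glue]**. -/
theorem Matched.glue {d m : ℕ} (hd : 1 ≤ d) {Rm Rp wm wp η0 c C r1 ε : ℝ} {U U1 : ℝ → ℝ → ℂ}
    {K : ℕ → ℝ → ℂ → ℂ} {p : ℝ × ℝ} {τ : ℝ} {u : ℂ} {Y Y1 : ℝ → ℂ}
    (M : Matched d m Rm Rp wm wp η0 c C r1 ε U U1 K p τ u Y Y1) (hRm : 0 < Rm) (hr1 : Rp ≤ r1)
    {Qb Qb1 : ℝ → ℂ}
    (hb : RadODE d (1 / ((2 * m : ℕ) : ℝ)) p.2 (fun r => ‖Qb r‖ ^ (2 * m)) Qb Qb1 (Ici r1))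
    (hble : ∀ r, r1 ≤ r → ‖Qb r‖ ^ (2 * m) ≤ 4) (h0 : Qb r1 = Y r1) (h1 : Qb1 r1 = Y1 r1) :
    (∀ r ∈ Icc τ r1, u * Qf d (2 * m) p r = Y r ∧ u * Qf1 d (2 * m) p r = Y1 r) ∧
    (∀ r, r1 ≤ r → u * Qf d (2 * m) p r = Qb r ∧ u * Qf1 d (2 * m) p r = Qb1 r) := by
  have hτ0 : 0 < τ := hRm.trans M.hτ.1
  have hτr : τ ≤ r1 := M.hτ.2.le.trans hr1
  have hr0 : 0 < r1 := hτ0.trans_le hτr
  have hQ := radODE_uQf hd (2 * m) p M.hu
  have c1 : Continuous fun r => u * Qf d (2 * m) p r := (continuous_Qf _ _ _).const_mul u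
  have c2 : Continuous fun r => u * Qf1 d (2 * m) p r := (continuous_Qf1 _ _ _).const_mul u
  have key1 : ∀ r ∈ Icc τ r1, u * Qf d (2 * m) p r = Y r ∧ u * Qf1 d (2 * m) p r = Y1 r := by
    refine cap_unique (n := 2 * m) hτ0 c1.continuousOn c2.continuousOn M.cY M.cY1
      (radODE_mono hQ fun r hr => hτ0.trans hr.1)
      (radODE_congr M.ode fun r hr => ?_) M.Yτ.symm M.Y1τ.symm
    rw [min_eq_left]
    exact (M.bd r ⟨hr.1.le, hr.2.le⟩).trans (by norm_num)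
  refine ⟨key1, fun r hr => ?_⟩
  obtain ⟨e1, e2⟩ := key1 r1 ⟨hτr, le_rfl⟩
  have hcb : ContinuousOn Qb (Icc r1 r) := fun s hs =>
    (hb.h1 s hs.1).continuousAt.continuousWithinAt
  have hcb1 : ContinuousOn Qb1 (Icc r1 r) := fun s hs =>
    (hb.h2 s hs.1).continuousAt.continuousWithinAt
  exact cap_unique (n := 2 * m) hr0 c1.continuousOn c2.continuousOn hcb hcb1
    (radODE_mono hQ fun s hs => hr0.trans hs.1)
    (radODE_congr (radODE_mono hb fun s hs => hs.1.le) fun s hs => by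
      rw [min_eq_left (hble s hs.1.le)]) (e1.trans h0.symm) (e2.trans h1.symm) r ⟨hr, le_rfl⟩

end Vale.Agent.P139.H505
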