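import Mathlib.Analysis.Calculus.Deriv.Basic
import Mathlib.Analysis.Calculus.MeanValue
import Mathlib.Analysis.Calculus.Deriv.MeanValue
import Mathlib.Topology.Order.LiminfLimsup

/-!
# P139 / H505 : the first hitting time and its continuity in parameters
-/

open Set Filter Topology

namespace Vale.Agent.P139.H505

/-- First `r ∈ [0,b]` with `f r ≤ 0`, or `b` if there is none. -/
noncomputable def hit (b : ℝ) (f : ℝ → ℝ) : ℝ := sInf ({r | 0 ≤ r ∧ r ≤ b ∧ f r ≤ 0} ∪ {b})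

section basic

variable {b : ℝ} {f : ℝ → ℝ}

theorem hit_bddBelow (hb : 0 ≤ b) : BddBelow ({r | 0 ≤ r ∧ r ≤ b ∧ f r ≤ 0} ∪ {b}) := by
  refine ⟨0, ?_⟩
  rintro r (hr | hr)
  · exact hr.1
  · rw [mem_singleton_iff.1 hr]; exact hb

theorem hit_le (hb : 0 ≤ b) : hit b f ≤ b :=
  csInf_le (hit_bddBelow hb) (Or.inr rfl)

theorem hit_nonneg (hb : 0 ≤ b) : 0 ≤ hit b f := by
  refine le_csInf ⟨b, Or.inr rfl⟩ ?_
  rintro r (hr | hr)
  · exact hr.1
  · rw [mem_singleton_iff.1 hr]; exact hb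

theorem hit_mem (hb : 0 ≤ b) : hit b f ∈ Icc 0 b := ⟨hit_nonneg hb, hit_le hb⟩

theorem hit_le_of_nonpos (hb : 0 ≤ b) {r : ℝ} (h0 : 0 ≤ r) (hr : r ≤ b) (hf : f r ≤ 0) :
    hit b f ≤ r :=
  csInf_le (hit_bddBelow hb) (Or.inl ⟨h0, hr, hf⟩)

theorem pos_of_lt_hit (hb : 0 ≤ b) {r : ℝ} (h0 : 0 ≤ r) (hr : r < hit b f) : 0 < f r := by
  by_contra hcon
  push Not at hcon
  exact absurd (hit_le_of_nonpos hb h0 (hr.le.trans (hit_le hb)) hcon) (not_le.2 hr)

theorem le_hit_of_pos {s : ℝ} (hs : s ≤ b) (h : ∀ r, 0 ≤ r → r < s → 0 < f r) :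
    s ≤ hit b f := by
  refine le_csInf ⟨b, Or.inr rfl⟩ ?_
  rintro r (hr | hr)
  · by_contra hcon
    push Not at hcon
    exact absurd (h r hr.1 hcon) (not_lt.2 hr.2.2)
  · rw [mem_singleton_iff.1 hr]; exact hs

theorem hit_eq_b_or_nonpos (hb : 0 ≤ b) (hf : ContinuousOn f (Icc 0 b)) :
    hit b f = b ∨ f (hit b f) ≤ 0 := by
  rcases eq_or_ne (hit b f) b with h | h
  · exact Or.inl h
  right
  have hcl : IsClosed ({r | 0 ≤ r ∧ r ≤ b ∧ f r ≤ 0} ∪ {b}) := by
    refine IsClosed.union ?_ isClosed_singleton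
    have : {r | 0 ≤ r ∧ r ≤ b ∧ f r ≤ 0} = Icc 0 b ∩ f ⁻¹' Iic 0 := by
      ext r; simp [and_assoc]
    rw [this]
    exact hf.preimage_isClosed_of_isClosed isClosed_Icc isClosed_Iic
  have := hcl.csInf_mem ⟨b, Or.inr rfl⟩ (hit_bddBelow (f := f) hb)
  rcases this with h1 | h1
  · exact h1.2.2
  · exact absurd h1 h

theorem hit_eq_zero_of_lt (hb : 0 ≤ b) (hf : ContinuousOn f (Icc 0 b)) (h0 : 0 < f 0)
    (h : hit b f < b) : f (hit b f) = 0 := by
  refine le_antisymm ((hit_eq_b_or_nonpos hb hf).resolve_left h.ne) ?_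
  have hpos : 0 < hit b f := by
    rcases (hit_nonneg (f := f) hb).lt_or_eq with h1 | h1
    · exact h1
    · have := (hit_eq_b_or_nonpos hb hf).resolve_left h.ne
      rw [← h1] at this
      exact absurd h0 (not_lt.2 this)
  have hcw : ContinuousWithinAt f (Iio (hit b f) ∩ Ioi 0) (hit b f) := by
    refine (hf _ (hit_mem hb)).mono ?_
    rintro r ⟨h1, h2⟩
    exact ⟨h2.le, h1.le.trans (hit_le hb)⟩
  have hne : (𝓝[Iio (hit b f) ∩ Ioi 0] (hit b f)).NeBot := by
    rw [nhdsWithin_inter_of_mem' (mem_nhdsWithin_of_mem_nhds (Ioi_mem_nhds hpos))]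
    infer_instance
  refine ge_of_tendsto hcw ?_
  filter_upwards [self_mem_nhdsWithin] with r hr
  exact (pos_of_lt_hit hb hr.2.le hr.1).le

theorem hit_pos (hb : 0 < b) (hf : ContinuousOn f (Icc 0 b)) (h0 : 0 < f 0) :
    0 < hit b f := by
  rcases (hit_nonneg (f := f) hb.le).lt_or_eq with h1 | h1
  · exact h1
  · rcases hit_eq_b_or_nonpos hb.le hf with h2 | h2
    · rw [h2]; exact hb
    · rw [← h1] at h2
      exact absurd h0 (not_lt.2 h2)

end basic

/-- Continuity of the first hitting time: if the function becomes strictly negative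
immediately after hitting `0`, then the hitting time is continuous in the parameter. -/
theorem continuousOn_hit {X : Type*} [TopologicalSpace X] {S : Set X} {b : ℝ} (hb : 0 < b)
    {f : X → ℝ → ℝ} (hf : ContinuousOn (fun p : X × ℝ => f p.1 p.2) (S ×ˢ Icc 0 b))
    (htr : ∀ x ∈ S, hit b (f x) < b → ∀ s, hit b (f x) < s → s ≤ b →
      ∃ r, hit b (f x) < r ∧ r < s ∧ f x r < 0) :
    ContinuousOn (fun x => hit b (f x)) S := by
  intro x hx
  rw [ContinuousWithinAt, tendsto_order]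
  constructor
  · -- lower semicontinuity
    intro s hs
    rcases lt_or_ge s 0 with hs0 | hs0
    · filter_upwards with y
      exact hs0.trans_le (hit_nonneg hb.le)
    -- pick `s' ∈ (s, hit)`
    obtain ⟨s', hs1, hs2⟩ := exists_between hs
    have hs'b : s' ≤ b := hs2.le.trans (hit_le hb.le)
    have hpos : ∀ r ∈ Icc 0 s', 0 < f x r := fun r hr =>
      pos_of_lt_hit hb.le hr.1 (hr.2.trans_lt hs2)
    -- tube lemma
    have key : ∀ᶠ y in 𝓝 x, ∀ r ∈ Icc 0 s', (r ∈ Icc 0 b → y ∈ S → 0 < f y r) := by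
      have hcomp : IsCompact (Icc (0:ℝ) s') := isCompact_Icc
      refine hcomp.eventually_forall_of_forall_eventually
        (P := fun y r => r ∈ Icc 0 b → y ∈ S → 0 < f y r) (fun r hr => ?_)
      have hc := hf (x, r) (mk_mem_prod hx ⟨hr.1, hr.2.trans hs'b⟩)
      have h1 : ∀ᶠ p in 𝓝[S ×ˢ Icc 0 b] (x, r), 0 < f p.1 p.2 :=
        hc.eventually (lt_mem_nhds (hpos r hr))
      rw [eventually_nhdsWithin_iff] at h1
      filter_upwards [h1] with p hp hp1 hp2
      exact hp (mk_mem_prod hp2 hp1)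
    filter_upwards [mem_nhdsWithin_of_mem_nhds key, self_mem_nhdsWithin] with y hy hyS
    refine hs1.trans_le (le_hit_of_pos hs'b fun r hr0 hr1 => ?_)
    exact hy r ⟨hr0, hr1.le⟩ ⟨hr0, hr1.le.trans hs'b⟩ hyS
  · intro s hs
    rcases lt_or_ge b s with hsb | hsb
    · filter_upwards with y
      exact (hit_le hb.le).trans_lt hsb
    obtain ⟨r, hr1, hr2, hr3⟩ := htr x hx (hs.trans_le hsb) s hs hsb
    have hr0 : 0 ≤ r := (hit_nonneg hb.le).trans hr1.le
    have hrb : r ≤ b := hr2.le.trans hsb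
    have hc : ContinuousWithinAt (fun y => f y r) S x :=
      (hf (x, r) (mk_mem_prod hx ⟨hr0, hrb⟩)).comp (f := fun y => (y, r))
        (by fun_prop : Continuous fun y : X => (y, r)).continuousWithinAt
        (fun y hy => mk_mem_prod hy ⟨hr0, hrb⟩)
    filter_upwards [hc.eventually (gt_mem_nhds hr3)] with y hy
    exact (hit_le_of_nonpos hb.le hr0 hrb hy.le).trans_lt hr2

/-- The strict sign of the derivative at the hitting time gives the transversality
hypothesis of `continuousOn_hit`. -/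
theorem exists_neg_of_hasDerivAt {f : ℝ → ℝ} {τ f' : ℝ} (h : f τ ≤ 0)
    (hd : HasDerivWithinAt f f' (Ioi τ) τ) (hneg : f' < 0) {s : ℝ} (hs : τ < s) :
    ∃ r, τ < r ∧ r < s ∧ f r < 0 := by
  have h1 : ∀ᶠ r in 𝓝[>] τ, slope f τ r < 0 := by
    have := hasDerivWithinAt_iff_tendsto_slope.1 hd
    rw [show Ioi τ \ {τ} = Ioi τ by simp] at this
    exact this.eventually (gt_mem_nhds hneg)
  have h2 : ∀ᶠ r in 𝓝[>] τ, r < s := mem_nhdsWithin_of_mem_nhds (Iio_mem_nhds hs)
  obtain ⟨r, hr1, hr2, hr3⟩ := (h1.and (h2.and self_mem_nhdsWithin)).exists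
  refine ⟨r, hr3, hr2, ?_⟩
  rw [slope_def_field, div_neg_iff] at hr1
  rcases hr1 with hr1 | hr1
  · exact absurd hr1.2 (not_lt.2 (sub_nonneg.2 (le_of_lt hr3)))
  · linarith [hr1.1]

/-- At the first hitting time of the level `κ` from above the derivative is negative, provided
the second derivative is negative whenever the first one vanishes. -/
theorem deriv_neg_at_hit {q q1 : ℝ → ℝ} {τ κ c q2 : ℝ} (hc : c < τ)
    (hq : ∀ r ∈ Ioc c τ, HasDerivWithinAt q (q1 r) (Iic r) r)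
    (hq1 : HasDerivWithinAt q1 q2 (Iio τ) τ)
    (hqc : ∀ r ∈ Ioo c τ, HasDerivAt q (q1 r) r)
    (hbefore : ∀ r ∈ Ioo c τ, κ < q r) (hat : q τ = κ) (hneg : q1 τ = 0 → q2 < 0) :
    q1 τ < 0 := by
  have hle : q1 τ ≤ 0 := by
    have h0 := (hq τ ⟨hc, le_rfl⟩).mono (Iio_subset_Iic_self)
    have := hasDerivWithinAt_iff_tendsto_slope.1 h0
    rw [show Iio τ \ {τ} = Iio τ by simp] at this
    refine le_of_tendsto this ?_
    have h3 : ∀ᶠ r in 𝓝[<] τ, c < r := mem_nhdsWithin_of_mem_nhds (Ioi_mem_nhds hc)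
    filter_upwards [h3, self_mem_nhdsWithin] with r h1 h2
    rw [slope_def_field, hat]
    have h4 := hbefore r ⟨h1, h2⟩
    have h5 : r - τ < 0 := sub_neg.2 h2
    exact (div_neg_of_pos_of_neg (by linarith) h5).le
  rcases hle.lt_or_eq with h | h
  · exact h
  exfalso
  have h2 := hneg h
  -- `q1 > 0` just before `τ`
  have h1 : ∀ᶠ r in 𝓝[<] τ, 0 < q1 r := by
    have h3 := hasDerivWithinAt_iff_tendsto_slope.1 hq1
    rw [show Iio τ \ {τ} = Iio τ by simp] at h3
    have h4 : ∀ᶠ r in 𝓝[<] τ, slope q1 τ r < 0 := h3.eventually (gt_mem_nhds h2)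
    filter_upwards [h4, self_mem_nhdsWithin] with r hr1 hr2
    rw [slope_def_field, h, sub_zero, div_neg_iff] at hr1
    rcases hr1 with hr1 | hr1
    · exact hr1.1
    · exact absurd hr1.2 (not_lt.2 (sub_nonpos.2 (le_of_lt hr2)))
  rw [eventually_nhdsWithin_iff, Metric.eventually_nhds_iff] at h1
  obtain ⟨ε, hε, h1⟩ := h1
  set r₀ := max ((c + τ) / 2) (τ - ε / 2) with hr₀
  have hr1 : c < r₀ := lt_of_lt_of_le (by linarith) (le_max_left _ _)
  have hr2 : r₀ < τ := max_lt (by linarith) (by linarith)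
  have hr3 : τ - ε / 2 ≤ r₀ := le_max_right _ _
  have hmono : StrictMonoOn q (Icc r₀ τ) := by
    refine strictMonoOn_of_deriv_pos (convex_Icc _ _) ?_ ?_
    · intro r hr
      rcases hr.2.lt_or_eq with hr4 | hr4
      · exact (hqc r ⟨hr1.trans_le hr.1, hr4⟩).continuousAt.continuousWithinAt
      · rw [hr4]
        exact ((hq τ ⟨hc, le_rfl⟩).continuousWithinAt).mono fun x hx => hx.2
    · intro r hr
      rw [interior_Icc] at hr
      rw [(hqc r ⟨hr1.trans hr.1, hr.2⟩).deriv]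
      refine h1 ?_ hr.2
      rw [Real.dist_eq, abs_lt]
      constructor <;> linarith [hr.1, hr.2]
  have h5 := hmono ⟨le_rfl, hr2.le⟩ ⟨hr2.le, le_rfl⟩ hr2
  have h6 := hbefore ((r₀ + τ) / 2) ⟨by linarith, by linarith⟩
  have h7 := hmono (a := (r₀ + τ) / 2) ⟨by linarith, by linarith⟩ ⟨hr2.le, le_rfl⟩ (by linarith)
  rw [hat] at h7
  linarith

end Vale.Agent.P139.H505
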