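import Vale.Agent.P139.H505.ParODE
import Vale.Agent.P139.H460.PSpec

/-!
# P139 / H505 : the second phase initial value problem with parameters

The field is `Y'' = -((d-1)/r + i r/2) Y' - (w + i a) Y + Φ(r - R, Y)` on `[R, r1]`, with
`Φ` continuous and Lipschitz in the second variable.  Existence, uniqueness and joint continuity in
`(R, Y(R), Y'(R), w, r)`.
-/

open Set Filter Topology Complex
open scoped NNReal

namespace Vale.Agent.P139.H505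

open Vale.Agent.P139.H460

/-- The field in the radial variable. -/
noncomputable def vf (d : ℕ) (a w : ℝ) (Φ : ℝ → ℂ → ℂ) (R r : ℝ) (y : ℂ × ℂ) : ℂ × ℂ :=
  (y.2, -((((d:ℝ) - 1) / r : ℝ) + I * (r / 2 : ℝ)) * y.2 - ((w:ℂ) + I * a) * y.1 + Φ (r - R) y.1)

/-- The parameter set `(R, Y(R), Y'(R), w)`. -/
def PS (Rm Rp wm wp : ℝ) : Set (ℝ × ℂ × ℂ × ℝ) := {p | p.1 ∈ Icc Rm Rp ∧ p.2.2.2 ∈ Icc wm wp}

theorem vf_dist_le {d : ℕ} {a w : ℝ} {Φ : ℝ → ℂ → ℂ} {K : ℝ≥0} (hΦ : ∀ s, LipschitzWith K (Φ s))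
    {Rm r1 W R r : ℝ} (hRm : 0 < Rm) (hr : Rm ≤ r) (hr1 : r ≤ r1) (hw : |w| ≤ W) (y z : ℂ × ℂ) :
    ‖vf d a w Φ R r y - vf d a w Φ R r z‖ ≤
      (1 + ((d + 1) / Rm + r1 / 2) + (W + |a|) + K) * ‖y - z‖ := by
  have hr0 : 0 < r := hRm.trans_le hr
  have h1 : ‖y.1 - z.1‖ ≤ ‖y - z‖ := norm_fst_le (y - z)
  have h2 : ‖y.2 - z.2‖ ≤ ‖y - z‖ := norm_snd_le (y - z)
  have hn : 0 ≤ ‖y - z‖ := norm_nonneg _
  have hW : 0 ≤ W := (abs_nonneg w).trans hw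
  have hr10 : 0 < r1 := hr0.trans_le hr1
  rw [Prod.norm_def, max_le_iff]
  constructor
  · simp only [vf, Prod.fst_sub]
    have : ‖y.2 - z.2‖ ≤ 1 * ‖y - z‖ := by rw [one_mul]; exact h2
    refine this.trans ?_
    gcongr
    have h3 : 0 ≤ (d + 1) / Rm + r1 / 2 := by positivity
    have h4 : 0 ≤ W + |a| := by positivity
    have h5 : (0:ℝ) ≤ K := K.2
    linarith
  · simp only [vf, Prod.snd_sub]
    have hA : ‖-((((d:ℝ) - 1) / r : ℝ) + I * (r / 2 : ℝ))‖ ≤ (d + 1) / Rm + r1 / 2 := by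
      rw [norm_neg]
      refine (norm_add_le _ _).trans ?_
      rw [norm_mul, norm_I, one_mul, norm_real, norm_real, Real.norm_eq_abs, Real.norm_eq_abs,
        abs_div, abs_of_pos hr0, abs_of_pos (by positivity : 0 < r / 2)]
      have hd : |(d:ℝ) - 1| ≤ d + 1 := by
        rw [abs_le]; constructor <;> linarith [(Nat.cast_nonneg d : (0:ℝ) ≤ d)]
      gcongr
    have hB : ‖(w:ℂ) + I * a‖ ≤ W + |a| := by
      refine (norm_add_le _ _).trans ?_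
      rw [norm_mul, norm_I, one_mul, norm_real, norm_real, Real.norm_eq_abs, Real.norm_eq_abs]
      gcongr
    have hC : ‖Φ (r - R) y.1 - Φ (r - R) z.1‖ ≤ K * ‖y.1 - z.1‖ := by
      rw [← dist_eq_norm, ← dist_eq_norm]; exact (hΦ _).dist_le_mul _ _
    have e : -((((d:ℝ) - 1) / r : ℝ) + I * (r / 2 : ℝ)) * y.2 - ((w:ℂ) + I * a) * y.1
        + Φ (r - R) y.1 - (-((((d:ℝ) - 1) / r : ℝ) + I * (r / 2 : ℝ)) * z.2
        - ((w:ℂ) + I * a) * z.1 + Φ (r - R) z.1) =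
        -((((d:ℝ) - 1) / r : ℝ) + I * (r / 2 : ℝ)) * (y.2 - z.2) - ((w:ℂ) + I * a) * (y.1 - z.1)
          + (Φ (r - R) y.1 - Φ (r - R) z.1) := by ring
    rw [e]
    refine (norm_add_le _ _).trans ?_
    have h3 := norm_sub_le (-((((d:ℝ) - 1) / r : ℝ) + I * (r / 2 : ℝ)) * (y.2 - z.2))
      (((w:ℂ) + I * a) * (y.1 - z.1))
    rw [norm_mul, norm_mul] at h3
    have h4 : ‖-((((d:ℝ) - 1) / r : ℝ) + I * (r / 2 : ℝ))‖ * ‖y.2 - z.2‖ ≤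
        ((d + 1) / Rm + r1 / 2) * ‖y - z‖ := by gcongr
    have h5 : ‖(w:ℂ) + I * a‖ * ‖y.1 - z.1‖ ≤ (W + |a|) * ‖y - z‖ := by gcongr
    have h6 : (K:ℝ) * ‖y.1 - z.1‖ ≤ K * ‖y - z‖ := by gcongr
    nlinarith

/-- Rescaled field on `[0,1]`: `r = R + s (r1 - R)`. -/
noncomputable def vfs (d : ℕ) (a : ℝ) (Φ : ℝ → ℂ → ℂ) (r1 : ℝ) (p : ℝ × ℂ × ℂ × ℝ) (s : ℝ)
    (y : ℂ × ℂ) : ℂ × ℂ :=
  (r1 - p.1) • vf d a p.2.2.2 Φ p.1 (p.1 + s * (r1 - p.1)) y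

theorem vfs_lip {d : ℕ} {a : ℝ} {Φ : ℝ → ℂ → ℂ} {K : ℝ≥0} (hΦ : ∀ s, LipschitzWith K (Φ s))
    {Rm Rp wm wp r1 : ℝ} (hRm : 0 < Rm) (hRp : Rp ≤ r1) :
    ∃ K' : ℝ≥0, ∀ p ∈ PS Rm Rp wm wp, ∀ s ∈ Icc (0:ℝ) 1, LipschitzWith K' (vfs d a Φ r1 p s) := by
  refine ⟨Real.toNNReal (|r1 - Rm| * (1 + ((d + 1) / Rm + |r1| / 2) + (max |wm| |wp| + |a|) + K)),
    fun p hp s hs => LipschitzWith.of_dist_le_mul fun y z => ?_⟩
  have hR := hp.1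
  have hr1R : 0 ≤ r1 - p.1 := by linarith [hR.2]
  have hr1 : 0 ≤ r1 := by linarith [hR.1, hR.2]
  rw [Real.coe_toNNReal _ (by positivity), dist_eq_norm, dist_eq_norm]
  simp only [vfs]
  rw [← smul_sub, norm_smul, Real.norm_eq_abs, abs_of_nonneg hr1R]
  have hw : |p.2.2.2| ≤ max |wm| |wp| := by
    have := hp.2
    rw [abs_le]
    constructor
    · have h1 := le_max_left |wm| |wp|
      have h2 := neg_abs_le wm
      linarith [this.1]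
    · have h1 := le_max_right |wm| |wp|
      have h2 := le_abs_self wp
      linarith [this.2]
  have h := vf_dist_le (d := d) (a := a) (w := p.2.2.2) hΦ (R := p.1)
    (r := p.1 + s * (r1 - p.1)) (r1 := r1) (W := max |wm| |wp|) hRm
    (by nlinarith [hR.1, hs.1]) (by nlinarith [hs.2, hR.1]) hw y z
  have h2 : r1 - p.1 ≤ |r1 - Rm| := (by linarith [hR.1] : r1 - p.1 ≤ r1 - Rm).trans (le_abs_self _)
  rw [abs_of_nonneg hr1]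
  calc (r1 - p.1) * _ ≤ |r1 - Rm| *
        ((1 + ((d + 1) / Rm + r1 / 2) + (max |wm| |wp| + |a|) + K) * ‖y - z‖) := by gcongr
    _ = _ := by ring

theorem vfs_continuousOn {d : ℕ} {a : ℝ} {Φ : ℝ → ℂ → ℂ} (hΦ : Continuous (Function.uncurry Φ))
    {Rm Rp wm wp r1 : ℝ} (hRm : 0 < Rm) (hRp : Rp ≤ r1) :
    ContinuousOn (fun q : (ℝ × ℂ × ℂ × ℝ) × ℝ × ℂ × ℂ => vfs d a Φ r1 q.1 q.2.1 q.2.2)
      (PS Rm Rp wm wp ×ˢ Icc 0 1 ×ˢ univ) := by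
  have hr : ContinuousOn (fun q : (ℝ × ℂ × ℂ × ℝ) × ℝ × ℂ × ℂ => q.1.1 + q.2.1 * (r1 - q.1.1))
      (PS Rm Rp wm wp ×ˢ Icc 0 1 ×ˢ univ) := by fun_prop
  have hne : ∀ q ∈ (PS Rm Rp wm wp ×ˢ Icc (0:ℝ) 1 ×ˢ (univ : Set (ℂ × ℂ))),
      q.1.1 + q.2.1 * (r1 - q.1.1) ≠ 0 := by
    rintro q ⟨h1, h2, -⟩
    have h3 := h1.1
    have h4 : 0 ≤ r1 - q.1.1 := by linarith [h3.2]
    have h5 := mul_nonneg h2.1 h4
    have h6 := h3.1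
    exact (by linarith : 0 < q.1.1 + q.2.1 * (r1 - q.1.1)).ne'
  have hdiv : ContinuousOn (fun q : (ℝ × ℂ × ℂ × ℝ) × ℝ × ℂ × ℂ =>
      ((d:ℝ) - 1) / (q.1.1 + q.2.1 * (r1 - q.1.1))) (PS Rm Rp wm wp ×ˢ Icc 0 1 ×ˢ univ) :=
    continuousOn_const.div hr hne
  have hP : ContinuousOn (fun q : (ℝ × ℂ × ℂ × ℝ) × ℝ × ℂ × ℂ =>
      Φ (q.1.1 + q.2.1 * (r1 - q.1.1) - q.1.1) q.2.2.1) (PS Rm Rp wm wp ×ˢ Icc 0 1 ×ˢ univ) := by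
    have : Continuous fun q : (ℝ × ℂ × ℂ × ℝ) × ℝ × ℂ × ℂ =>
        Φ (q.1.1 + q.2.1 * (r1 - q.1.1) - q.1.1) q.2.2.1 :=
      hΦ.comp (g := Function.uncurry Φ)
        (f := fun q : (ℝ × ℂ × ℂ × ℝ) × ℝ × ℂ × ℂ =>
          ((q.1.1 + q.2.1 * (r1 - q.1.1) - q.1.1, q.2.2.1) : ℝ × ℂ)) (by fun_prop)
    exact this.continuousOn
  have hdiv' : ContinuousOn (fun q : (ℝ × ℂ × ℂ × ℝ) × ℝ × ℂ × ℂ =>
      ((((d:ℝ) - 1) / (q.1.1 + q.2.1 * (r1 - q.1.1)) : ℝ) : ℂ))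
      (PS Rm Rp wm wp ×ˢ Icc 0 1 ×ˢ univ) := continuous_ofReal.comp_continuousOn hdiv
  have hsnd : ContinuousOn (fun q : (ℝ × ℂ × ℂ × ℝ) × ℝ × ℂ × ℂ =>
      -(((((d:ℝ) - 1) / (q.1.1 + q.2.1 * (r1 - q.1.1)) : ℝ) : ℂ)
        + I * (((q.1.1 + q.2.1 * (r1 - q.1.1)) / 2 : ℝ) : ℂ)) * q.2.2.2
        - ((q.1.2.2.2 : ℂ) + I * a) * q.2.2.1
        + Φ (q.1.1 + q.2.1 * (r1 - q.1.1) - q.1.1) q.2.2.1)
      (PS Rm Rp wm wp ×ˢ Icc 0 1 ×ˢ univ) := by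
    refine ContinuousOn.add (ContinuousOn.sub (ContinuousOn.mul (ContinuousOn.neg
      (ContinuousOn.add hdiv' ?_)) ?_) ?_) hP
    · fun_prop
    · fun_prop
    · fun_prop
  have hfst : ContinuousOn (fun q : (ℝ × ℂ × ℂ × ℝ) × ℝ × ℂ × ℂ => q.2.2.2)
      (PS Rm Rp wm wp ×ˢ Icc 0 1 ×ˢ univ) := by fun_prop
  have hsc : ContinuousOn (fun q : (ℝ × ℂ × ℂ × ℝ) × ℝ × ℂ × ℂ => r1 - q.1.1)
      (PS Rm Rp wm wp ×ˢ Icc 0 1 ×ˢ univ) := by fun_prop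
  exact hsc.smul (hfst.prodMk hsnd)

/-- Data of a solution on a closed interval, with one-sided derivatives at the end points. -/
structure Sol (d : ℕ) (a w : ℝ) (Φ : ℝ → ℂ → ℂ) (R r1 : ℝ) (y0 y1 : ℂ) (Y Y1 : ℝ → ℂ) : Prop where
  cY : ContinuousOn Y (Icc R r1)
  cY1 : ContinuousOn Y1 (Icc R r1)
  d1 : ∀ r ∈ Icc R r1, HasDerivWithinAt Y (Y1 r) (Icc R r1) r
  d2 : ∀ r ∈ Icc R r1, HasDerivWithinAt Y1
    (-((((d:ℝ) - 1) / r : ℝ) + I * (r / 2 : ℝ)) * Y1 r - ((w:ℂ) + I * a) * Y r + Φ (r - R) (Y r))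
    (Icc R r1) r
  init0 : Y R = y0
  init1 : Y1 R = y1

theorem Sol.hasDerivAt1 {d : ℕ} {a w : ℝ} {Φ : ℝ → ℂ → ℂ} {R r1 : ℝ} {y0 y1 : ℂ} {Y Y1 : ℝ → ℂ}
    (h : Sol d a w Φ R r1 y0 y1 Y Y1) : ∀ r ∈ Ioo R r1, HasDerivAt Y (Y1 r) r := fun r hr =>
  (h.d1 r ⟨hr.1.le, hr.2.le⟩).hasDerivAt (Icc_mem_nhds hr.1 hr.2)

theorem Sol.hasDerivAt2 {d : ℕ} {a w : ℝ} {Φ : ℝ → ℂ → ℂ} {R r1 : ℝ} {y0 y1 : ℂ} {Y Y1 : ℝ → ℂ}
    (h : Sol d a w Φ R r1 y0 y1 Y Y1) : ∀ r ∈ Ioo R r1, HasDerivAt Y1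
    (-((((d:ℝ) - 1) / r : ℝ) + I * (r / 2 : ℝ)) * Y1 r - ((w:ℂ) + I * a) * Y r + Φ (r - R) (Y r)) r :=
  fun r hr => (h.d2 r ⟨hr.1.le, hr.2.le⟩).hasDerivAt (Icc_mem_nhds hr.1 hr.2)

/-- **Second phase, general form.** -/
theorem exists_sol_param (d : ℕ) (a : ℝ) {Φ : ℝ → ℂ → ℂ} {K : ℝ≥0}
    (hΦc : Continuous (Function.uncurry Φ)) (hΦ : ∀ s, LipschitzWith K (Φ s))
    {Rm Rp wm wp r1 : ℝ} (hRm : 0 < Rm) (hRp : Rp < r1) :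
    ∃ Y Y1 : (ℝ × ℂ × ℂ × ℝ) → ℝ → ℂ,
      (∀ p ∈ PS Rm Rp wm wp, Sol d a p.2.2.2 Φ p.1 r1 p.2.1 p.2.2.1 (Y p) (Y1 p)) ∧
      ContinuousOn (fun q : (ℝ × ℂ × ℂ × ℝ) × ℝ => Y q.1 q.2)
        {q | q.1 ∈ PS Rm Rp wm wp ∧ q.2 ∈ Icc q.1.1 r1} ∧
      ContinuousOn (fun q : (ℝ × ℂ × ℂ × ℝ) × ℝ => Y1 q.1 q.2)
        {q | q.1 ∈ PS Rm Rp wm wp ∧ q.2 ∈ Icc q.1.1 r1} := by
  obtain ⟨K', hK'⟩ := vfs_lip (d := d) (a := a) (wm := wm) (wp := wp) hΦ hRm hRp.le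
  have hjoint := vfs_continuousOn (d := d) (a := a) (wm := wm) (wp := wp) hΦc hRm hRp.le
  have hex : ∀ p : ℝ × ℂ × ℂ × ℝ, ∃ y : ℝ → ℂ × ℂ, p ∈ PS Rm Rp wm wp →
      (y 0 = (p.2.1, p.2.2.1) ∧ ContinuousOn y (Icc 0 1) ∧
      ∀ s ∈ Icc (0:ℝ) 1, HasDerivWithinAt y (vfs d a Φ r1 p s (y s)) (Icc 0 1) s) := by
    intro p
    by_cases hp : p ∈ PS Rm Rp wm wp
    · have hc : ∀ x, ContinuousOn (fun s => vfs d a Φ r1 p s x) (Icc 0 1) := fun x =>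
        hjoint.comp (f := fun s : ℝ => ((p, s, x) : (ℝ × ℂ × ℂ × ℝ) × ℝ × ℂ × ℂ)) (by fun_prop)
          fun s hs => ⟨hp, hs, mem_univ _⟩
      obtain ⟨y, h1, h2, h3⟩ := exists_ode zero_le_one (hK' p hp) hc (p.2.1, p.2.2.1)
      exact ⟨y, fun _ => ⟨h1, h2, h3⟩⟩
    · exact ⟨fun _ => 0, fun h => absurd h hp⟩
  choose y hy using hex
  have hyc : ContinuousOn (fun q : (ℝ × ℂ × ℂ × ℝ) × ℝ => y q.1 q.2)
      (PS Rm Rp wm wp ×ˢ Icc 0 1) := by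
    refine continuousOn_ode_param hK' hjoint (fun p hp => (hy p hp).2.2) ?_
    refine ContinuousOn.congr (f := fun p : ℝ × ℂ × ℂ × ℝ => (p.2.1, p.2.2.1)) (by fun_prop) ?_
    intro p hp
    exact (hy p hp).1
  -- time change
  have hpos : ∀ p ∈ PS Rm Rp wm wp, 0 < r1 - p.1 := fun p hp => by linarith [hp.1.2]
  have hmaps : ∀ p ∈ PS Rm Rp wm wp, ∀ r ∈ Icc p.1 r1, (r - p.1) / (r1 - p.1) ∈ Icc (0:ℝ) 1 := by
    intro p hp r hr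
    have h1 := hpos p hp
    refine ⟨div_nonneg (by linarith [hr.1]) h1.le, ?_⟩
    rw [div_le_one h1]; linarith [hr.2]
  have hcomp : ContinuousOn (fun q : (ℝ × ℂ × ℂ × ℝ) × ℝ => y q.1 ((q.2 - q.1.1) / (r1 - q.1.1)))
      {q | q.1 ∈ PS Rm Rp wm wp ∧ q.2 ∈ Icc q.1.1 r1} := by
    refine hyc.comp (f := fun q : (ℝ × ℂ × ℂ × ℝ) × ℝ =>
      ((q.1, (q.2 - q.1.1) / (r1 - q.1.1)) : (ℝ × ℂ × ℂ × ℝ) × ℝ)) ?_ ?_
    · refine ContinuousOn.prodMk (by fun_prop) (ContinuousOn.div (by fun_prop) (by fun_prop) ?_)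
      intro q hq
      exact (hpos q.1 hq.1).ne'
    · intro q hq
      exact ⟨hq.1, hmaps q.1 hq.1 q.2 hq.2⟩
  refine ⟨fun p r => (y p ((r - p.1) / (r1 - p.1))).1, fun p r => (y p ((r - p.1) / (r1 - p.1))).2,
    ?_, continuous_fst.comp_continuousOn hcomp, continuous_snd.comp_continuousOn hcomp⟩
  intro p hp
  have h1 := hpos p hp
  have hder : ∀ r ∈ Icc p.1 r1, HasDerivWithinAt (fun r => y p ((r - p.1) / (r1 - p.1)))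
      (vf d a p.2.2.2 Φ p.1 r (y p ((r - p.1) / (r1 - p.1)))) (Icc p.1 r1) r := by
    intro r hr
    have h2 := (hy p hp).2.2 _ (hmaps p hp r hr)
    have h3 : HasDerivWithinAt (fun r => (r - p.1) / (r1 - p.1)) (1 / (r1 - p.1)) (Icc p.1 r1) r :=
      ((hasDerivAt_id r).sub_const p.1).div_const (r1 - p.1) |>.hasDerivWithinAt
    have h4 := h2.scomp r h3 (fun s hs => hmaps p hp s hs)
    have e1 : p.1 + (r - p.1) / (r1 - p.1) * (r1 - p.1) = r := by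
      field_simp
      ring
    have e2 : (1 / (r1 - p.1)) • vfs d a Φ r1 p ((r - p.1) / (r1 - p.1))
        (y p ((r - p.1) / (r1 - p.1))) =
        vf d a p.2.2.2 Φ p.1 r (y p ((r - p.1) / (r1 - p.1))) := by
      simp only [vfs]
      rw [smul_smul, one_div, inv_mul_cancel₀ h1.ne', one_smul, e1]
    rw [← e2]
    exact h4
  refine ⟨?_, ?_, ?_, ?_, ?_, ?_⟩
  · exact fun r hr => continuous_fst.continuousAt.comp_continuousWithinAt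
      (hder r hr).continuousWithinAt
  · exact fun r hr => continuous_snd.continuousAt.comp_continuousWithinAt
      (hder r hr).continuousWithinAt
  · intro r hr
    have := (ContinuousLinearMap.fst ℝ ℂ ℂ).hasFDerivAt.comp_hasDerivWithinAt r (hder r hr)
    exact this
  · intro r hr
    have := (ContinuousLinearMap.snd ℝ ℂ ℂ).hasFDerivAt.comp_hasDerivWithinAt r (hder r hr)
    exact this
  · simp [(hy p hp).1]
  · simp [(hy p hp).1]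

end Vale.Agent.P139.H505
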