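import Vale.Agent.P139.H505.Fam3
import Vale.Agent.P139.H460.PF1

/-!
# P139 / H505 : existence of the profile package (`d = 13`)
-/

open Set Filter Topology Complex Metric
open Vale.Agent.P139.H460 Vale.Agent.P139.H499 Vale.Agent.P139.BU Vale.Agent.P139.KU

namespace Vale.Agent.P139.H505

/-- **[P]** the m-uniform profile package exists, in the certificate box. -/
theorem exists_UP : ∃ (m0 : ℕ) (w R : ℕ → ℝ) (q : ℕ → ℝ → ℂ),
    UP 13 {x : ℝ × ℝ | H312.Box x.1 x.2} m0 w R q := by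
  obtain ⟨η0, c, C, r1, θz, θf, x0, M0, ε, m0, p, τ, u, Y, Y1, Qb, Qb1, hε, h⟩ :=
    exists_fam (d := 13) (by norm_num) bRm_pos bRm_lt bRp_lt bwm_pos bwm_le bwp_le signData
      (fun η0 hη0 => ⟨Real.exp (-((min η0 (1/16)) ^ 2) / 4), ⟨(Real.exp_pos _).le, by
        rw [Real.exp_lt_one_iff]
        have h1 : 0 < min η0 (1/16) := lt_min hη0 (by norm_num)
        have h2 := pow_pos h1 2
        linarith⟩, fun r1 => funnel hη0⟩)
  refine ⟨m0, _, _, _, h.up (fun w hw R hR => box_of_mem hw hR) ?_⟩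
  obtain ⟨C', hC', hJ⟩ := exists_J_le 13 bRm_pos bwm_pos signData.ne
  have h1 : Tendsto (fun m => C' * ε m) atTop (𝓝 0) := by simpa using hε.const_mul C'
  refine squeeze_zero_norm' ?_ h1
  filter_upwards [eventually_ge_atTop m0] with m hm
  have hM := h.mat m hm
  refine (hJ (p m).2 hM.hp.2 (τ m) ⟨hM.hτ.1.le, hM.hτ.2.le⟩).trans ?_
  exact mul_le_mul_of_nonneg_left hM.nsmall hC'

end Vale.Agent.P139.H505
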