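import Vale.Agent.P139.H505.Hit
import Vale.Agent.P139.H499.RI7

/-!
# P139 / H505 : [P.HIT] continuity of the first hitting radius of the capped profile
-/

open Set Filter Topology Complex
open Vale.Agent.P139.H460 Vale.Agent.P139.H499

namespace Vale.Agent.P139.H505

/-- Initial value: `q0^n = (1/2 + 3t/2) w`. -/
noncomputable def q0f (n : ℕ) (p : ℝ × ℝ) : ℝ := ((1 / 2 + 3 / 2 * p.1) * p.2) ^ (1 / (n : ℝ))

/-- The capped profile with parameters `p = (t, w)`. -/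
noncomputable def Qf (d n : ℕ) (p : ℝ × ℝ) (r : ℝ) : ℂ := cQ d n p.2 (q0f n p) r

/-- Its derivative. -/
noncomputable def Qf1 (d n : ℕ) (p : ℝ × ℝ) (r : ℝ) : ℂ := cQ1 d n p.2 (q0f n p) r

/-- The hitting function. -/
noncomputable def ff (d n : ℕ) (p : ℝ × ℝ) (r : ℝ) : ℝ := ‖Qf d n p r‖ ^ n - p.2 / 2

/-- The first hitting radius of the level `|Q|^n = w/2`. -/
noncomputable def tauf (d n : ℕ) (b' : ℝ) (p : ℝ × ℝ) : ℝ := hit b' (ff d n p)

theorem q0f_pow {n : ℕ} (hn : 1 ≤ n) {p : ℝ × ℝ} (ht : 0 ≤ p.1) (hw : 0 ≤ p.2) :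
    q0f n p ^ n = (1 / 2 + 3 / 2 * p.1) * p.2 := by
  unfold q0f
  rw [← Real.rpow_natCast, ← Real.rpow_mul (by positivity)]
  have : (1 / (n:ℝ)) * n = 1 := by
    have : (n:ℝ) ≠ 0 := by positivity
    field_simp
  rw [this, Real.rpow_one]

theorem q0f_pos {n : ℕ} {p : ℝ × ℝ} (ht : 0 ≤ p.1) (hw : 0 < p.2) : 0 < q0f n p := by
  unfold q0f; positivity

theorem continuousOn_q0f (n : ℕ) {wm wp : ℝ} (hwm : 0 < wm) :
    ContinuousOn (q0f n) (Icc 0 1 ×ˢ Icc wm wp) := by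
  unfold q0f
  refine ContinuousOn.rpow_const (by fun_prop) ?_
  rintro p ⟨h1, h2⟩
  left
  have h3 : 0 < p.2 := hwm.trans_le h2.1
  have h4 : 0 ≤ p.1 := h1.1
  positivity

theorem continuousOn_Qf (d n : ℕ) {wm wp : ℝ} (hwm : 0 < wm) (T : Set ℝ) :
    ContinuousOn (fun x : (ℝ × ℝ) × ℝ => Qf d n x.1 x.2) ((Icc 0 1 ×ˢ Icc wm wp) ×ˢ T) := by
  have h1 : ContinuousOn (fun x : (ℝ × ℝ) × ℝ => q0f n x.1) ((Icc 0 1 ×ˢ Icc wm wp) ×ˢ T) :=
    (continuousOn_q0f n hwm).comp continuousOn_fst fun x hx => hx.1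
  exact (continuous_cQ d n).comp_continuousOn
    (f := fun x : (ℝ × ℝ) × ℝ => ((x.1.2, q0f n x.1, x.2) : ℝ × ℝ × ℝ))
    ((by fun_prop : ContinuousOn (fun x : (ℝ × ℝ) × ℝ => x.1.2) _).prodMk
      (h1.prodMk (by fun_prop)))

theorem continuousOn_Qf1 (d n : ℕ) {wm wp : ℝ} (hwm : 0 < wm) (T : Set ℝ) :
    ContinuousOn (fun x : (ℝ × ℝ) × ℝ => Qf1 d n x.1 x.2) ((Icc 0 1 ×ˢ Icc wm wp) ×ˢ T) := by
  have h1 : ContinuousOn (fun x : (ℝ × ℝ) × ℝ => q0f n x.1) ((Icc 0 1 ×ˢ Icc wm wp) ×ˢ T) :=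
    (continuousOn_q0f n hwm).comp continuousOn_fst fun x hx => hx.1
  exact (continuous_cQ1 d n).comp_continuousOn
    (f := fun x : (ℝ × ℝ) × ℝ => ((x.1.2, q0f n x.1, x.2) : ℝ × ℝ × ℝ))
    ((by fun_prop : ContinuousOn (fun x : (ℝ × ℝ) × ℝ => x.1.2) _).prodMk
      (h1.prodMk (by fun_prop)))

theorem continuous_Qf (d n : ℕ) (p : ℝ × ℝ) : Continuous (Qf d n p) :=
  (continuous_cQ d n).comp (f := fun r : ℝ => ((p.2, q0f n p, r) : ℝ × ℝ × ℝ)) (by fun_prop)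

theorem continuousOn_ff (d n : ℕ) {wm wp : ℝ} (hwm : 0 < wm) (T : Set ℝ) :
    ContinuousOn (fun x : (ℝ × ℝ) × ℝ => ff d n x.1 x.2) ((Icc 0 1 ×ˢ Icc wm wp) ×ˢ T) := by
  unfold ff
  have := continuousOn_Qf d n hwm T (wp := wp)
  fun_prop

theorem regSol_Qf {d : ℕ} (hd : 1 ≤ d) (n : ℕ) (p : ℝ × ℝ) (b : ℝ) :
    RegSol d n p.2 (q0f n p) b (Qf d n p) (Qf1 d n p) := regSol_cQ hd n _ _ b

theorem Qf_zero (d n : ℕ) (p : ℝ × ℝ) : Qf d n p 0 = (q0f n p : ℂ) := cQ_zero _ _ _ _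

/-- Derivative of `|Q|²`. -/
theorem hasDerivAt_normSq_Qf (d n : ℕ) (p : ℝ × ℝ) (r : ℝ) :
    HasDerivAt (fun r => ‖Qf d n p r‖ ^ 2) (2 * ((starRingEnd ℂ (Qf d n p r)) * Qf1 d n p r).re) r := by
  have h1 : HasDerivAt (Qf d n p) (Qf1 d n p r) r := hasDerivAt_cQ d n _ _ r
  have h2 := h1.norm_sq
  convert h2 using 1
  rw [Complex.inner, mul_comm (starRingEnd ℂ (Qf d n p r))]

theorem pow_lt_of_sq_lt {x c : ℝ} {n : ℕ} (hn : 1 ≤ n) (hx : 0 ≤ x) (hc : 0 ≤ c) (h : x ^ 2 < c ^ 2) :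
    x ^ n < c ^ n := by
  have : x < c := lt_of_pow_lt_pow_left₀ 2 hc h
  exact pow_lt_pow_left₀ this hx (by omega)

/-- If the derivative of `|Q|²` is negative to the right of `τ`, the function `ff` becomes
negative. -/
theorem exists_neg_ff {d n : ℕ} (hn : 1 ≤ n) {p : ℝ × ℝ} {τ : ℝ} (h0 : ff d n p τ ≤ 0)
    (hneg : ∃ ε > 0, ∀ r, τ < r → r < τ + ε →
      ((starRingEnd ℂ (Qf d n p r)) * Qf1 d n p r).re < 0) {s : ℝ} (hs : τ < s) :
    ∃ r, τ < r ∧ r < s ∧ ff d n p r < 0 := by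
  obtain ⟨ε, hε, hneg⟩ := hneg
  set r₀ := min ((τ + s) / 2) (τ + ε / 2) with hr₀
  have h1 : τ < r₀ := lt_min (by linarith) (by linarith)
  have h2 : r₀ < s := (min_le_left _ _).trans_lt (by linarith)
  have h3 : r₀ < τ + ε := (min_le_right _ _).trans_lt (by linarith)
  refine ⟨r₀, h1, h2, ?_⟩
  have hanti : StrictAntiOn (fun r => ‖Qf d n p r‖ ^ 2) (Icc τ r₀) := by
    refine strictAntiOn_of_deriv_neg (convex_Icc _ _) ?_ ?_
    · exact fun r _ => (hasDerivAt_normSq_Qf d n p r).continuousAt.continuousWithinAt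
    · intro r hr
      rw [interior_Icc] at hr
      rw [(hasDerivAt_normSq_Qf d n p r).deriv]
      have := hneg r hr.1 (hr.2.trans h3)
      linarith
  have h4 := hanti ⟨le_rfl, h1.le⟩ ⟨h1.le, le_rfl⟩ h1
  have h5 := pow_lt_of_sq_lt hn (norm_nonneg _) (norm_nonneg _) h4
  unfold ff at h0 ⊢
  linarith

/-- Transversality at `r = 0` when `|Q(0)|^n = w/2`. -/
theorem neg_near_zero {d n : ℕ} (hd : 1 ≤ d) {p : ℝ × ℝ} (hq : 0 < q0f n p)
    (hp : q0f n p ^ n < p.2) :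
    ∃ ε > 0, ∀ r, 0 < r → r < 0 + ε → ((starRingEnd ℂ (Qf d n p r)) * Qf1 d n p r).re < 0 := by
  set V := cV d n p.2 (q0f n p) with hV
  have hVc : Continuous V := cV_continuous _ _ _ _
  have hV0 : V 0 = ((1 : ℝ) / d) • Hc n p.2 0 (q0f n p : ℂ) 0 := by
    have h := cV_isReg d n p.2 (q0f n p) 0 (mem_univ _)
    rw [← hV] at h
    rw [h]
    simp only [avg, rhs, zero_mul, prim, intervalIntegral.integral_same, smul_zero, add_zero,
      zero_smul]
    rw [intervalIntegral.integral_smul_const, integral_pow]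
    congr 1
    have : ((d - 1 : ℕ) : ℝ) + 1 = d := by
      rw [Nat.cast_sub hd]; push_cast; ring
    rw [this]; simp
  -- the continuous function `Re (conj Q · V(r²))`
  set g : ℝ → ℝ := fun r => ((starRingEnd ℂ (Qf d n p r)) * V (r ^ 2)).re with hg
  have hgc : Continuous g := by
    have := continuous_Qf d n p
    have h2 : Continuous fun r : ℝ => V (r ^ 2) := hVc.comp (by fun_prop)
    exact continuous_re.comp ((continuous_conj.comp this).mul h2)
  have hg0 : g 0 < 0 := by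
    have hd0 : (0:ℝ) < d := by exact_mod_cast hd
    have : g 0 = (1 / d) * (q0f n p ^ 2 * (min (q0f n p ^ n) 4 - p.2)) := by
      simp only [hg]
      rw [Qf_zero, zero_pow two_ne_zero, hV0]
      simp only [Hc, cp, conj_ofReal, norm_real, Real.norm_eq_abs, abs_of_pos hq]
      rw [Complex.real_smul]
      simp
      ring
    rw [this]
    have h1 : min (q0f n p ^ n) 4 - p.2 < 0 := by
      have := min_le_left (q0f n p ^ n) 4
      linarith
    have h2 : 0 < q0f n p ^ 2 := by positivity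
    have h3 : q0f n p ^ 2 * (min (q0f n p ^ n) 4 - p.2) < 0 := mul_neg_of_pos_of_neg h2 h1
    have h4 : 0 < 1 / (d:ℝ) := by positivity
    exact mul_neg_of_pos_of_neg h4 h3
  obtain ⟨ε, hε, h⟩ := Metric.eventually_nhds_iff.1 (hgc.continuousAt.eventually (gt_mem_nhds hg0))
  refine ⟨ε, hε, fun r hr0 hr1 => ?_⟩
  have h1 : g r < 0 := h (by rw [Real.dist_eq, sub_zero, abs_of_pos hr0]; linarith)
  have e : ((starRingEnd ℂ (Qf d n p r)) * Qf1 d n p r).re = r * g r := by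
    simp only [hg, Qf1, cQ1, radD]
    rw [Complex.real_smul, mul_left_comm, Complex.re_ofReal_mul]
  rw [e]
  exact mul_neg_of_pos_of_neg hr0 h1

/-- **[P.HIT]**. -/
theorem hit_package {d : ℕ} (hd : 1 ≤ d) (hcore : CoreStatement d) {wm wp : ℝ} (hwm : 0 < wm)
    (hwmp : wm ≤ wp) (hwp : wp ≤ 1) : ∃ N : ℕ, ∀ n ≥ N, ∀ b' ∈ Ioc (0:ℝ) 4,
      ContinuousOn (tauf d n b') (Icc 0 1 ×ˢ Icc wm wp) ∧
      (∀ p ∈ Icc 0 1 ×ˢ Icc wm wp, tauf d n b' p ∈ Icc 0 b') ∧
      (∀ w ∈ Icc wm wp, tauf d n b' (0, w) = 0) ∧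
      (∀ w ∈ Icc wm wp, tauf d n b' (1, w) = b') ∧
      (∀ p ∈ Icc 0 1 ×ˢ Icc wm wp, 0 < tauf d n b' p → tauf d n b' p < b' →
        FirstHit n p.2 (Qf d n p) (tauf d n b' p)) ∧
      ContinuousOn (fun p => Qf d n p (tauf d n b' p)) (Icc 0 1 ×ˢ Icc wm wp) ∧
      ContinuousOn (fun p => Qf1 d n p (tauf d n b' p)) (Icc 0 1 ×ˢ Icc wm wp) := by
  obtain ⟨C, hC, N, hN⟩ := hcore wm wp hwm hwmp hwp
  refine ⟨max (max N 1) (Nat.floor (C / wm) + 1), fun n hn b' hb' => ?_⟩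
  have hn1 : 1 ≤ n := ((le_max_right _ _).trans (le_max_left _ _)).trans hn
  have hnN : N ≤ n := ((le_max_left _ _).trans (le_max_left _ _)).trans hn
  have hnC : C / wm < n := by
    have h1 : Nat.floor (C / wm) + 1 ≤ n := (le_max_right _ _).trans hn
    exact (Nat.lt_floor_add_one _).trans_le (by exact_mod_cast h1)
  have hb0 : 0 < b' := hb'.1
  have hfc : ∀ p ∈ Icc (0:ℝ) 1 ×ˢ Icc wm wp, ContinuousOn (ff d n p) (Icc 0 b') := by
    intro p hp
    have := continuous_Qf d n p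
    unfold ff
    fun_prop
  have hf0 : ∀ p ∈ Icc (0:ℝ) 1 ×ˢ Icc wm wp, ff d n p 0 = 3 / 2 * p.1 * p.2 := by
    intro p hp
    have h1 : 0 ≤ p.1 := hp.1.1
    have h2 : 0 < p.2 := hwm.trans_le hp.2.1
    unfold ff
    rw [Qf_zero, norm_real, Real.norm_eq_abs, abs_of_pos (q0f_pos h1 h2), q0f_pow hn1 h1 h2.le]
    ring
  have hmem : ∀ p ∈ Icc (0:ℝ) 1 ×ˢ Icc wm wp, tauf d n b' p ∈ Icc 0 b' := fun p _ =>
    hit_mem hb0.le
  have hfirst : ∀ p ∈ Icc (0:ℝ) 1 ×ˢ Icc wm wp, 0 < tauf d n b' p → tauf d n b' p < b' →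
      FirstHit n p.2 (Qf d n p) (tauf d n b' p) := by
    intro p hp h1 h2
    have h3 : ff d n p (tauf d n b' p) ≤ 0 :=
      (hit_eq_b_or_nonpos hb0.le (hfc p hp)).resolve_left h2.ne
    have h4 : ∀ r ∈ Ico 0 (tauf d n b' p), 0 < ff d n p r := fun r hr =>
      pos_of_lt_hit hb0.le hr.1 hr.2
    have h5 : 0 ≤ ff d n p (tauf d n b' p) := by
      have hc : ContinuousWithinAt (ff d n p) (Ico 0 (tauf d n b' p)) (tauf d n b' p) :=
        (hfc p hp _ (hmem p hp)).mono fun r hr => ⟨hr.1, hr.2.le.trans (hmem p hp).2⟩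
      have hcl : tauf d n b' p ∈ closure (Ico 0 (tauf d n b' p)) := by
        rw [closure_Ico h1.ne]; exact ⟨h1.le, le_rfl⟩
      have : (𝓝[Ico 0 (tauf d n b' p)] (tauf d n b' p)).NeBot :=
        mem_closure_iff_nhdsWithin_neBot.1 hcl
      refine ge_of_tendsto hc ?_
      filter_upwards [self_mem_nhdsWithin] with r hr
      exact (h4 r hr).le
    refine ⟨h1, fun r hr => ?_, ?_⟩
    · rcases hr.2.lt_or_eq with h | h
      · have := h4 r ⟨hr.1, h⟩
        unfold ff at this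
        linarith
      · rw [h]; unfold ff at h5; linarith
    · unfold ff at h3 h5; linarith
  have hcont : ContinuousOn (tauf d n b') (Icc 0 1 ×ˢ Icc wm wp) := by
    refine continuousOn_hit hb0 (continuousOn_ff d n hwm (Icc 0 b')) ?_
    intro p hp hlt s hs hsb
    have h1 : 0 ≤ p.1 := hp.1.1
    have h2 : 0 < p.2 := hwm.trans_le hp.2.1
    have h0 : ff d n p (hit b' (ff d n p)) ≤ 0 :=
      (hit_eq_b_or_nonpos hb0.le (hfc p hp)).resolve_left hlt.ne
    refine exists_neg_ff hn1 h0 ?_ hs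
    rcases (hit_nonneg (f := ff d n p) hb0.le).lt_or_eq with hpos | hzero
    · have hF := hfirst p hp hpos hlt
      have hre := (hN n hnN p.2 hp.2 (q0f n p) (q0f_pos h1 h2) (b' + 1) (tauf d n b' p)
        ((hmem p hp).2.trans hb'.2) (by have := (hmem p hp).2; linarith) (Qf d n p) (Qf1 d n p)
        (regSol_Qf hd n p _) hF).2.2.1
      -- continuity
      have hgc : Continuous fun r => ((starRingEnd ℂ (Qf d n p r)) * Qf1 d n p r).re := by
        have c1 := continuous_Qf d n p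
        have c2 : Continuous (Qf1 d n p) := (continuous_cQ1 d n).comp
          (f := fun r : ℝ => ((p.2, q0f n p, r) : ℝ × ℝ × ℝ)) (by fun_prop)
        exact continuous_re.comp ((continuous_conj.comp c1).mul c2)
      obtain ⟨ε, hε, h⟩ := Metric.eventually_nhds_iff.1
        (hgc.continuousAt.eventually (gt_mem_nhds hre))
      refine ⟨ε, hε, fun r hr0 hr1 => h ?_⟩
      change dist r (hit b' (ff d n p)) < ε
      rw [Real.dist_eq, abs_lt]
      constructor <;> linarith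
    · rw [← hzero] at h0 ⊢
      rw [hf0 p hp] at h0
      have h3 : p.1 = 0 := by
        rcases h1.lt_or_eq with h | h
        · have : 0 < 3 / 2 * p.1 * p.2 := by positivity
          linarith
        · exact h.symm
      refine neg_near_zero hd (q0f_pos h1 h2) ?_
      rw [q0f_pow hn1 h1 h2.le, h3]
      linarith
  refine ⟨hcont, hmem, ?_, ?_, hfirst, ?_, ?_⟩
  · intro w hw
    have hp : ((0:ℝ), w) ∈ Icc (0:ℝ) 1 ×ˢ Icc wm wp := ⟨⟨le_rfl, zero_le_one⟩, hw⟩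
    refine le_antisymm ?_ (hmem _ hp).1
    exact hit_le_of_nonpos hb0.le le_rfl hb0.le (by rw [hf0 _ hp]; simp)
  · intro w hw
    have hp : ((1:ℝ), w) ∈ Icc (0:ℝ) 1 ×ˢ Icc wm wp := ⟨⟨zero_le_one, le_rfl⟩, hw⟩
    have hw0 : 0 < w := hwm.trans_le hw.1
    by_contra hne
    have hlt : tauf d n b' (1, w) < b' := lt_of_le_of_ne (hmem _ hp).2 hne
    have hpos : 0 < tauf d n b' (1, w) := by
      refine hit_pos hb0 (hfc _ hp) ?_
      rw [hf0 _ hp]
      simp only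
      positivity
    have hF := hfirst _ hp hpos hlt
    have h1 := (hN n hnN w hw (q0f n (1, w)) (q0f_pos zero_le_one hw0) (b' + 1)
        (tauf d n b' (1, w)) ((hmem _ hp).2.trans hb'.2) (by have := (hmem _ hp).2; linarith)
        (Qf d n (1, w)) (Qf1 d n (1, w)) (regSol_Qf hd n (1, w) _) hF).1 0 ⟨le_rfl, hpos.le⟩
    have h2 := hf0 _ hp
    unfold ff at h2
    simp only at h2
    have h3 : (n:ℝ) * wm > C := by
      rw [div_lt_iff₀ hwm] at hnC; linarith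
    have hn0 : (0:ℝ) < n := by exact_mod_cast hn1
    have h4 : C / n < wm := by rw [div_lt_iff₀ hn0]; linarith
    have := hw.1
    linarith
  · exact (continuousOn_Qf d n hwm univ (wp := wp)).comp (f := fun p => (p, tauf d n b' p))
      (continuousOn_id.prodMk hcont) fun p hp => ⟨hp, mem_univ _⟩
  · exact (continuousOn_Qf1 d n hwm univ (wp := wp)).comp (f := fun p => (p, tauf d n b' p))
      (continuousOn_id.prodMk hcont) fun p hp => ⟨hp, mem_univ _⟩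

end Vale.Agent.P139.H505
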